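import Vale.Agent.P243.Main

/-!
# P243: named notions for the statement
-/

open MeasureTheory

namespace Vale.Agent.P243

variable {V : Type} [NormedAddCommGroup V] [InnerProductSpace ℝ V]

/-- The plane through the origin orthogonal to `u`. -/
noncomputable def planeOf (u : V) : Submodule ℝ V := (ℝ ∙ u)ᗮ

/-- The sets in the plane through the origin orthogonal to `u`. -/
def BaseSet (u : V) : Type := Set ↥(planeOf u)

/-- The ambient Lebesgue (outer) measure of a set in a Euclidean space. -/
noncomputable def lebesgueOuter {W : Type} [NormedAddCommGroup W] [InnerProductSpace ℝ W]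
    [FiniteDimensional ℝ W] [MeasurableSpace W] [BorelSpace W] (S : Set W) : ENNReal :=
  volume S

/-- The point set of the cylinder with base `B` and axis direction `u`. -/
def cylinderOn (u : V) (B : BaseSet u) : Set V :=
  {x | ∃ b : ↥(planeOf u), B b ∧ ∃ t : ℝ, x = (b : V) + t • u}

/-- The orthogonal projection of `K` onto the plane orthogonal to `u`. -/
noncomputable def projectionOn [FiniteDimensional ℝ V] (u : V) (K : Set V) : BaseSet u :=
  Set.image (planeOf u).orthogonalProjectionOnto K

/-- Lebesgue (outer) area of a set in the plane orthogonal to `u`. -/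
noncomputable def areaOn [FiniteDimensional ℝ V] [MeasurableSpace V] [BorelSpace V] (u : V)
    (B : BaseSet u) : ENNReal :=
  lebesgueOuter (W := ↥(planeOf u)) B

/-- The least area of an orthogonal projection onto a plane through the origin. -/
noncomputable def leastShadow [FiniteDimensional ℝ V] [MeasurableSpace V] [BorelSpace V]
    (K : Set V) : ENNReal :=
  ⨅ (v : V) (_ : ‖v‖ = 1), areaOn v (projectionOn v K)

/-- A countable family of cylinders covering `K`. -/
def IsCylinderCovering {ι : Type} (K : Set V) (u : ι → V) (B : ∀ i, BaseSet (u i)) : Prop :=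
  (∀ i, ‖u i‖ = 1) ∧ K ⊆ ⋃ i, cylinderOn (u i) (B i)

/-- A convex body with a centre of symmetry. -/
def IsSymmetricBody (K : Set V) : Prop :=
  IsCompact K ∧ Convex ℝ K ∧ (interior K).Nonempty ∧ ∃ z : V, ∀ x ∈ K, (2 : ℝ) • z - x ∈ K

/-- The total base area of a family of cylinders. -/
noncomputable def totalArea [FiniteDimensional ℝ V] [MeasurableSpace V] [BorelSpace V] {ι : Type}
    (u : ι → V) (B : ∀ i, BaseSet (u i)) : ENNReal :=
  ∑' i, areaOn (u i) (B i)

/-- The total base area, in three space. -/
noncomputable def totalArea3 {ι : Type} (u : ι → E3) (B : ∀ i, BaseSet (u i)) : ENNReal :=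
  totalArea u B

/-- The least shadow area, in three space. -/
noncomputable def leastShadow3 (K : Set E3) : ENNReal := leastShadow K

end Vale.Agent.P243
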