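import Vale.Agent.P243.Improve.Main
import Vale.Agent.P243.Statement

/-!
# P243: named notions for the bound above one third
-/

open MeasureTheory

namespace Vale.Agent.P243

/-- A convex body: compact, convex, with nonempty interior. -/
def IsBody (K : Set E3) : Prop := IsCompact K ∧ Convex ℝ K ∧ (interior K).Nonempty

/-- The directionwise relative area of a family of cylinders. -/
noncomputable def relativeArea3 {ι : Type} (K : Set E3) (u : ι → E3) (B : ∀ i, BaseSet (u i)) :
    ENNReal :=
  ∑' i, areaOn (u i) (B i) / areaOn (u i) (projectionOn (u i) K)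

theorem above_third :
    ∃ δ : ℝ, 0 < δ ∧ ∀ (K : Set E3) (ι : Type) [Countable ι] (u : ι → E3) (B : ∀ i, BaseSet (u i)),
      IsBody K → IsCylinderCovering K u B →
        ENNReal.ofReal (1 / 3 + δ) ≤ relativeArea3 K u B ∧
        ENNReal.ofReal (1 / 3 + δ) * leastShadow3 K ≤ totalArea3 u B := by
  obtain ⟨δ, hδ, h⟩ := Improve.relative_bound
  refine ⟨δ, hδ, fun K ι _ u B hK hcov => ?_⟩
  have hrel : ENNReal.ofReal (1 / 3 + δ) ≤ relativeArea3 K u B :=
    h K ι u B hK.2.1 hK.1 hK.2.2 hcov.1 hcov.2
  refine ⟨hrel, le_trans (mul_le_mul_left hrel _) ?_⟩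
  rw [relativeArea3, ← ENNReal.tsum_mul_right]
  refine ENNReal.tsum_le_tsum fun i => ?_
  calc areaOn (u i) (B i) / areaOn (u i) (projectionOn (u i) K) * leastShadow3 K
      ≤ areaOn (u i) (B i) / areaOn (u i) (projectionOn (u i) K) *
          areaOn (u i) (projectionOn (u i) K) :=
        mul_le_mul_right (iInf₂_le (u i) (hcov.1 i)) _
    _ ≤ _ := by rw [mul_comm]; exact ENNReal.mul_div_le

end Vale.Agent.P243
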