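import Mathlib

/-!
# P243: basic definitions
-/

open MeasureTheory

namespace Vale.Agent.P243

/-- Euclidean three space. -/
abbrev E3 := EuclideanSpace ℝ (Fin 3)

/-- The plane through the origin orthogonal to `u`. -/
noncomputable abbrev plane (u : E3) : Submodule ℝ E3 := (ℝ ∙ u)ᗮ

/-- The area of the orthogonal projection of `K` onto the plane orthogonal to `u`. -/
noncomputable def shadowArea (u : E3) (K : Set E3) : ENNReal :=
  volume ((plane u).orthogonalProjectionOnto '' K)

/-- The cylinder with base `B` in the plane orthogonal to `u` and axis direction `u`. -/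
def cylinder (u : E3) (B : Set (plane u)) : Set E3 :=
  {x | ∃ b ∈ B, ∃ t : ℝ, x = (b : E3) + t • u}

instance : Fact (Module.finrank ℝ E3 = 2 + 1) := ⟨by simp⟩

end Vale.Agent.P243
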