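import Mathlib

/-!
# P243: the algebra of the optimality condition
-/

namespace Vale.Agent.P243

/-- Three by three arrays. -/
abbrev M3 := Fin 3 → Fin 3 → ℝ

/-- The quadratic form of an array. -/
def qf (S : M3) (v : Fin 3 → ℝ) : ℝ :=
  (v 0 * (S 0 0 * v 0 + S 0 1 * v 1 + S 0 2 * v 2))
    + (v 1 * (S 1 0 * v 0 + S 1 1 * v 1 + S 1 2 * v 2))
    + (v 2 * (S 2 0 * v 0 + S 2 1 * v 1 + S 2 2 * v 2))

/-- Trace pairing. -/
def pair (S G : M3) : ℝ := ∑ i, ∑ j, S i j * G i j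

/-- Weighted squared length of a cross product. -/
def crossq (k : ℝ) (u w : Fin 3 → ℝ) : ℝ :=
  (u 1 * w 2 - u 2 * w 1) ^ 2 + (u 2 * w 0 - u 0 * w 2) ^ 2 + k * (u 0 * w 1 - u 1 * w 0) ^ 2

/-- Weighted sum of principal minors. -/
def minors (k : ℝ) (G : M3) : ℝ :=
  (G 1 1 * G 2 2 - G 1 2 * G 2 1) + (G 0 0 * G 2 2 - G 0 2 * G 2 0)
    + k * (G 0 0 * G 1 1 - G 0 1 * G 1 0)

/-- The normalised rank one array. -/
def outer (u : Fin 3 → ℝ) : M3 := fun i j => u i * u j

/-- The possible gradients at the optimum. -/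
def grads (flag : Prop) : Set M3 :=
  {G | G 0 1 = G 1 0 ∧ G 0 2 = G 2 0 ∧ G 1 2 = G 2 1 ∧ G 0 0 + G 1 1 + G 2 2 = 1
    ∧ (∀ v : Fin 3 → ℝ, 2 * qf G v ≤ v 0 ^ 2 + v 1 ^ 2 + v 2 ^ 2)
    ∧ (flag → G 2 2 = 1 / 2 ∧ G 0 2 = 0 ∧ G 1 2 = 0)}

lemma grads_minor {flag : Prop} {G : M3} (hG : G ∈ grads flag) :
    (2 * G 0 0 ≤ 1 ∧ 2 * G 1 1 ≤ 1 ∧ 2 * G 2 2 ≤ 1)
    ∧ 4 * G 0 1 ^ 2 ≤ (1 - 2 * G 0 0) * (1 - 2 * G 1 1)
    ∧ 4 * G 0 2 ^ 2 ≤ (1 - 2 * G 0 0) * (1 - 2 * G 2 2)
    ∧ 4 * G 1 2 ^ 2 ≤ (1 - 2 * G 1 1) * (1 - 2 * G 2 2) := by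
  obtain ⟨h01, h02, h12, -, hq, -⟩ := hG
  refine ⟨⟨?_, ?_, ?_⟩, ?_, ?_, ?_⟩
  · simpa [qf] using hq ![1, 0, 0]
  · simpa [qf] using hq ![0, 1, 0]
  · simpa [qf] using hq ![0, 0, 1]
  · have := discrim_le_zero (a := 1 - 2 * G 0 0) (b := -4 * G 0 1) (c := 1 - 2 * G 1 1)
      (fun x => by
        have := hq ![x, 1, 0]
        simp [qf, ← h01] at this
        linarith)
    unfold discrim at this
    linarith
  · have := discrim_le_zero (a := 1 - 2 * G 0 0) (b := -4 * G 0 2) (c := 1 - 2 * G 2 2)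
      (fun x => by
        have := hq ![x, 0, 1]
        simp [qf, ← h02] at this
        linarith)
    unfold discrim at this
    linarith
  · have := discrim_le_zero (a := 1 - 2 * G 1 1) (b := -4 * G 1 2) (c := 1 - 2 * G 2 2)
      (fun x => by
        have := hq ![0, x, 1]
        simp [qf, ← h12] at this
        linarith)
    unfold discrim at this
    linarith

lemma minors_ge {flag : Prop} {G : M3} {k : ℝ} (hk : 0 ≤ k) (hk1 : ¬flag → k = 1)
    (hG : G ∈ grads flag) : 1 / 4 ≤ minors k G := by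
  obtain ⟨⟨hd0, hd1, hd2⟩, m01, m02, m12⟩ := grads_minor hG
  obtain ⟨h01, h02, h12, htr, -, hf⟩ := hG
  unfold minors
  rw [← h01, ← h02, ← h12]
  by_cases hflag : flag
  · obtain ⟨e22, e02, e12⟩ := hf hflag
    have hz : 0 ≤ G 0 0 * G 1 1 - G 0 1 * G 0 1 := by nlinarith
    rw [e22, e02, e12]
    nlinarith [mul_nonneg hk hz]
  · rw [hk1 hflag]
    nlinarith

lemma sum_crossq {ι : Type*} [Fintype ι] (k : ℝ) (w : ι → ℝ) (z : ι → Fin 3 → ℝ) :
    ∑ p, ∑ q, w p * w q * crossq k (z p) (z q)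
      = 2 * minors k (∑ p, w p • outer (z p)) := by
  let m : Fin 3 → Fin 3 → ℝ := fun i j => ∑ p, w p * (z p i * z p j)
  have hG : ∀ i j, (∑ p, w p • outer (z p)) i j = m i j := fun i j => by
    simp [m, outer, Finset.sum_apply]
  have key : ∀ i j i' j' : Fin 3,
      ∑ p, ∑ q, w p * w q * (z p i * z p j * (z q i' * z q j')) = m i j * m i' j' := by
    intro i j i' j'
    simp only [m]
    rw [Finset.sum_mul_sum]
    exact Finset.sum_congr rfl fun p _ => Finset.sum_congr rfl fun q _ => by ring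
  have hcomm : ∀ i j, m i j = m j i := fun i j => Finset.sum_congr rfl fun p _ => by ring
  have expand : ∀ p q, w p * w q * crossq k (z p) (z q) =
      (w p * w q * (z p 1 * z p 1 * (z q 2 * z q 2))) - 2 * (w p * w q * (z p 1 * z p 2 * (z q 2 * z q 1)))
      + (w p * w q * (z p 2 * z p 2 * (z q 1 * z q 1)))
      + (w p * w q * (z p 2 * z p 2 * (z q 0 * z q 0))) - 2 * (w p * w q * (z p 2 * z p 0 * (z q 0 * z q 2)))
      + (w p * w q * (z p 0 * z p 0 * (z q 2 * z q 2)))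
      + k * (w p * w q * (z p 0 * z p 0 * (z q 1 * z q 1))) - 2 * k * (w p * w q * (z p 0 * z p 1 * (z q 1 * z q 0)))
      + k * (w p * w q * (z p 1 * z p 1 * (z q 0 * z q 0))) := fun p q => by
    unfold crossq; ring
  simp_rw [expand]
  simp only [Finset.sum_add_distrib, Finset.sum_sub_distrib, ← Finset.mul_sum, key]
  simp only [minors, hG]
  rw [hcomm 2 1, hcomm 2 0, hcomm 1 0]
  ring

lemma continuous_minors (k : ℝ) : Continuous (minors k) := by
  unfold minors; fun_prop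

/-- If all weighted cross products of a set are at most `m`, then its closed convex hull has
small weighted minors. -/
lemma minors_le_of_hull {k m : ℝ} (U : Set (Fin 3 → ℝ))
    (hm : ∀ u ∈ U, ∀ w ∈ U, crossq k u w ≤ m) {G : M3}
    (hG : G ∈ closure (convexHull ℝ (outer '' U))) : 2 * minors k G ≤ m := by
  have hclosed : IsClosed {G : M3 | 2 * minors k G ≤ m} :=
    isClosed_le (continuous_const.mul (continuous_minors k)) continuous_const
  refine closure_minimal ?_ hclosed hG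
  intro H hH
  obtain ⟨ι, _, w, z, hw0, hw1, hz, rfl⟩ := mem_convexHull_iff_exists_fintype.1 hH
  choose v hv hvz using hz
  show 2 * minors k _ ≤ m
  rw [show (∑ i, w i • z i) = ∑ i, w i • outer (v i) from
    Finset.sum_congr rfl fun i _ => by rw [hvz], ← sum_crossq]
  calc ∑ p, ∑ q, w p * w q * crossq k (v p) (v q) ≤ ∑ p, ∑ q, w p * w q * m := by
        refine Finset.sum_le_sum fun p _ => Finset.sum_le_sum fun q _ => ?_
        exact mul_le_mul_of_nonneg_left (hm _ (hv p) _ (hv q)) (mul_nonneg (hw0 p) (hw0 q))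
    _ = m := by simp [← Finset.mul_sum, ← Finset.sum_mul, hw1]

lemma convex_grads (flag : Prop) : Convex ℝ (grads flag) := by
  rintro G ⟨a1, a2, a3, a4, a5, a6⟩ H ⟨b1, b2, b3, b4, b5, b6⟩ s r hs hr hsr
  refine ⟨?_, ?_, ?_, ?_, fun v => ?_, fun hf => ?_⟩ <;>
    (try simp only [Pi.add_apply, Pi.smul_apply, smul_eq_mul])
  · rw [a1, b1]
  · rw [a2, b2]
  · rw [a3, b3]
  · linear_combination s * a4 + r * b4 + hsr
  · have : qf (s • G + r • H) v = s * qf G v + r * qf H v := by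
      simp only [qf, Pi.add_apply, Pi.smul_apply, smul_eq_mul]; ring
    rw [this]
    have h : s * (v 0 ^ 2 + v 1 ^ 2 + v 2 ^ 2) + r * (v 0 ^ 2 + v 1 ^ 2 + v 2 ^ 2)
        = v 0 ^ 2 + v 1 ^ 2 + v 2 ^ 2 := by rw [← add_mul, hsr, one_mul]
    nlinarith [mul_le_mul_of_nonneg_left (a5 v) hs, mul_le_mul_of_nonneg_left (b5 v) hr]
  · obtain ⟨x1, x2, x3⟩ := a6 hf
    obtain ⟨y1, y2, y3⟩ := b6 hf
    rw [x1, x2, x3, y1, y2, y3]
    refine ⟨by linear_combination (1 / 2 : ℝ) * hsr, by ring, by ring⟩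

lemma isCompact_grads (flag : Prop) : IsCompact (grads flag) := by
  refine (isCompact_Icc (a := fun _ _ => (-1 : ℝ)) (b := fun _ _ => 1)).of_isClosed_subset ?_ ?_
  · have h5 : ∀ v : Fin 3 → ℝ, IsClosed {G : M3 | 2 * qf G v ≤ v 0 ^ 2 + v 1 ^ 2 + v 2 ^ 2} :=
      fun v => isClosed_le (by unfold qf; fun_prop) continuous_const
    simp only [grads, Set.setOf_and, Set.setOf_forall]
    refine IsClosed.inter (isClosed_eq (by fun_prop) (by fun_prop)) (IsClosed.inter
      (isClosed_eq (by fun_prop) (by fun_prop)) (IsClosed.inter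
      (isClosed_eq (by fun_prop) (by fun_prop)) (IsClosed.inter
      (isClosed_eq (by fun_prop) continuous_const) (IsClosed.inter (isClosed_iInter h5) ?_))))
    refine isClosed_iInter fun _ => IsClosed.inter
      (isClosed_eq (by fun_prop) continuous_const) (IsClosed.inter
      (isClosed_eq (by fun_prop) continuous_const) (isClosed_eq (by fun_prop) continuous_const))
  · intro G hG
    obtain ⟨⟨hd0, hd1, hd2⟩, m01, m02, m12⟩ := grads_minor hG
    obtain ⟨h01, h02, h12, htr, -, -⟩ := hG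
    have h00 : 0 ≤ G 0 0 := by linarith
    have h11 : 0 ≤ G 1 1 := by linarith
    have h22 : 0 ≤ G 2 2 := by linarith
    have bnd : ∀ {x a b : ℝ}, 0 ≤ a → 0 ≤ b → 2 * a ≤ 1 → 2 * b ≤ 1 →
        4 * x ^ 2 ≤ (1 - 2 * a) * (1 - 2 * b) → -1 ≤ x ∧ x ≤ 1 := fun ha hb ha' hb' h => by
      constructor <;> nlinarith
    have b01 := bnd h00 h11 hd0 hd1 m01
    have b02 := bnd h00 h22 hd0 hd2 m02
    have b12 := bnd h11 h22 hd1 hd2 m12
    simp only [Set.mem_Icc, Pi.le_def, Fin.forall_fin_succ, Fin.forall_fin_zero_pi]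
    refine ⟨?_, ?_⟩ <;> simp [← h01, ← h02, ← h12] <;>
      constructorm* _ ∧ _ <;> linarith [b01.1, b01.2, b02.1, b02.2, b12.1, b12.2]

lemma pair_eq_of_clm (f : M3 →L[ℝ] ℝ) (G : M3) :
    f G = pair (fun i j => f (Pi.single i (Pi.single j 1))) G := by
  conv_lhs => rw [show G = ∑ i, ∑ j, G i j • (Pi.single i (Pi.single j (1 : ℝ)) : M3) by
    ext i j; simp [Finset.sum_apply, Pi.single_apply, ite_apply]]
  simp [pair, mul_comm]

/-- First order separation: either some pair of contact directions has a long cross product,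
or an improving direction exists. -/
lemma separation (U : Set (Fin 3 → ℝ)) (hU : IsCompact U)
    (hU1 : ∀ u ∈ U, u 0 ^ 2 + u 1 ^ 2 + u 2 ^ 2 = 1) {flag : Prop} {k : ℝ} (hk : 0 ≤ k)
    (hk1 : ¬flag → k = 1) :
    (∃ u ∈ U, ∃ w ∈ U, 1 / 2 ≤ crossq k u w) ∨
    ∃ S : M3, (∀ i j, S i j = S j i) ∧ (∀ u ∈ U, qf S u < 0) ∧
      (∀ G ∈ grads flag, 0 < pair S G) := by
  by_cases hmeet : ∃ G ∈ closure (convexHull ℝ (outer '' U)), G ∈ grads flag
  · left
    obtain ⟨G, hG1, hG2⟩ := hmeet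
    have hne : U.Nonempty := by
      by_contra h
      rw [Set.not_nonempty_iff_eq_empty.1 h] at hG1
      simp at hG1
    obtain ⟨⟨u, w⟩, ⟨hu, hw⟩, hmax⟩ := (hU.prod hU).exists_isMaxOn (hne.prod hne)
      (f := fun p : (Fin 3 → ℝ) × (Fin 3 → ℝ) => crossq k p.1 p.2)
      (by unfold crossq; fun_prop)
    refine ⟨u, hu, w, hw, ?_⟩
    have hle := minors_le_of_hull (m := crossq k u w) U (fun a ha b hb => hmax (Set.mk_mem_prod ha hb)) hG1
    linarith [minors_ge hk hk1 hG2]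
  · right
    push Not at hmeet
    obtain ⟨f, a, a', hs, haa, ht⟩ := geometric_hahn_banach_closed_compact
      (convex_convexHull ℝ (outer '' U)).closure isClosed_closure
      (convex_grads flag) (isCompact_grads flag)
      (Set.disjoint_left.2 hmeet)
    let S0 : M3 := fun i j => f (Pi.single i (Pi.single j 1))
    let S : M3 := fun i j => (S0 i j + S0 j i) / 2 - (if i = j then a else 0)
    refine ⟨S, fun i j => by simp only [S, eq_comm (a := i) (b := j)]; ring, fun u hu => ?_,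
      fun G hG => ?_⟩
    · have h := hs _ (subset_closure (subset_convexHull ℝ _ ⟨u, hu, rfl⟩))
      rw [pair_eq_of_clm] at h
      have h1 := hU1 u hu
      have e : qf S u = pair S0 (outer u) - a * (u 0 ^ 2 + u 1 ^ 2 + u 2 ^ 2) := by
        simp [qf, pair, outer, S, Fin.sum_univ_three]
        ring
      rw [e, h1]
      linarith [show pair S0 (outer u) < a from h]
    · have h := ht G hG
      rw [pair_eq_of_clm] at h
      obtain ⟨h01, h02, h12, htr, -, -⟩ := hG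
      have e : pair S G = pair S0 G - a * (G 0 0 + G 1 1 + G 2 2) := by
        simp [pair, S, Fin.sum_univ_three, ← h01, ← h02, ← h12]
        ring
      rw [e, htr]
      linarith [show a' < pair S0 G from h]

end Vale.Agent.P243
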