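import Vale.Agent.P243.Shadow
import Vale.Agent.P243.Quad

/-!
# P243: the optimum ellipsoid in adapted coordinates
-/

open Filter Topology
open scoped RealInnerProductSpace

namespace Vale.Agent.P243

/-- Diagonal scaling. -/
noncomputable def scl (b c : ℝ) (x : E3) : E3 := !₂[b * x 0, b * x 1, c * x 2]

@[simp] lemma scl_zero' (b c : ℝ) (x : E3) : (scl b c x) 0 = b * x 0 := by simp [scl]
@[simp] lemma scl_one' (b c : ℝ) (x : E3) : (scl b c x) 1 = b * x 1 := by simp [scl]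
@[simp] lemma scl_two' (b c : ℝ) (x : E3) : (scl b c x) 2 = c * x 2 := by simp [scl]

lemma inner3 (x y : E3) : ⟪x, y⟫ = x 0 * y 0 + x 1 * y 1 + x 2 * y 2 := by
  rw [PiLp.inner_apply, Fin.sum_univ_three]
  simp [mul_comm]

lemma normsq3 (x : E3) : ‖x‖ ^ 2 = x 0 ^ 2 + x 1 ^ 2 + x 2 ^ 2 := by
  rw [← real_inner_self_eq_norm_sq, inner3]; ring

lemma ext3 {x y : E3} (h0 : x 0 = y 0) (h1 : x 1 = y 1) (h2 : x 2 = y 2) : x = y := by
  ext i; fin_cases i <;> assumption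

lemma scl_scl (b c b' c' : ℝ) (x : E3) : scl b c (scl b' c' x) = scl (b * b') (c * c') x := by
  apply ext3 <;> simp [mul_assoc]

lemma scl_id (x : E3) : scl 1 1 x = x := by apply ext3 <;> simp

lemma continuous_scl (b c : ℝ) : Continuous (scl b c) := by unfold scl; fun_prop

/-- Apply an array to a vector. -/
noncomputable def app (S : M3) (x : E3) : E3 :=
  !₂[S 0 0 * x 0 + S 0 1 * x 1 + S 0 2 * x 2,
    S 1 0 * x 0 + S 1 1 * x 1 + S 1 2 * x 2,
    S 2 0 * x 0 + S 2 1 * x 1 + S 2 2 * x 2]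

/-- The squared Frobenius norm. -/
def frob (S : M3) : ℝ :=
  S 0 0 ^ 2 + S 0 1 ^ 2 + S 0 2 ^ 2 + S 1 0 ^ 2 + S 1 1 ^ 2 + S 1 2 ^ 2
    + S 2 0 ^ 2 + S 2 1 ^ 2 + S 2 2 ^ 2

lemma norm_app_sq_le (S : M3) (x : E3) : ‖app S x‖ ^ 2 ≤ frob S * ‖x‖ ^ 2 := by
  have row : ∀ a b c : ℝ, (a * x 0 + b * x 1 + c * x 2) ^ 2
      ≤ (a ^ 2 + b ^ 2 + c ^ 2) * (x 0 ^ 2 + x 1 ^ 2 + x 2 ^ 2) := fun a b c => by
    nlinarith [sq_nonneg (a * x 1 - b * x 0), sq_nonneg (a * x 2 - c * x 0),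
      sq_nonneg (b * x 2 - c * x 1)]
  rw [normsq3, normsq3]
  simp only [app, frob, PiLp.toLp_apply, Matrix.cons_val_zero, Matrix.cons_val_one, Matrix.cons_val]
  nlinarith [row (S 0 0) (S 0 1) (S 0 2), row (S 1 0) (S 1 1) (S 1 2), row (S 2 0) (S 2 1) (S 2 2)]

lemma inner_app (S : M3) (hS : ∀ i j, S i j = S j i) (l x : E3) :
    ⟪l, app S x⟫ = ⟪app S l, x⟫ := by
  rw [inner3, inner3]
  simp [app, hS 1 0, hS 2 0, hS 2 1]
  ring

lemma inner_app_self (S : M3) (x : E3) : ⟪x, app S x⟫ = qf S (⇑x) := by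
  rw [inner3]; simp [app, qf]

/-- The perturbed diagonal map. -/
noncomputable def pmat (b c ε : ℝ) (S : M3) : Matrix (Fin 3) (Fin 3) ℝ :=
  !![b * (1 + ε * S 0 0), b * (ε * S 0 1), b * (ε * S 0 2);
    b * (ε * S 1 0), b * (1 + ε * S 1 1), b * (ε * S 1 2);
    c * (ε * S 2 0), c * (ε * S 2 1), c * (1 + ε * S 2 2)]

lemma pmat_apply (b c ε : ℝ) (S : M3) (x : E3) :
    Matrix.toEuclideanLin (pmat b c ε S) x = scl b c (x + ε • app S x) := by
  apply ext3 <;>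
    simp [pmat, Matrix.toLpLin_apply, Matrix.mulVec, dotProduct, Fin.sum_univ_three, app] <;> ring

lemma beta_bound {k : ℝ} (hk0 : 0 ≤ k) (hk1 : k ≤ 1) (S : M3) (x : E3) :
    (S 0 2 * x 0 + S 1 2 * x 1 + k * (S 2 0 * x 0 + S 2 1 * x 1 + S 2 2 * x 2)) ^ 2
      ≤ 9 * (1 + |S 2 0| + |S 2 1| + |S 2 2| + |S 0 2| + |S 1 2|) ^ 2 * ‖x‖ ^ 2 := by
  have hm : ∀ (s : ℝ) (i : Fin 3), |s * x i| ≤ |s| * ‖x‖ := fun s i => by
    rw [abs_mul]
    refine mul_le_mul_of_nonneg_left ?_ (abs_nonneg s)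
    simpa using PiLp.norm_apply_le x i
  have h1 := abs_add_three (S 0 2 * x 0) (S 1 2 * x 1)
    (k * (S 2 0 * x 0 + S 2 1 * x 1 + S 2 2 * x 2))
  have h2 := abs_add_three (S 2 0 * x 0) (S 2 1 * x 1) (S 2 2 * x 2)
  have h3 : |k * (S 2 0 * x 0 + S 2 1 * x 1 + S 2 2 * x 2)|
      ≤ |S 2 0 * x 0 + S 2 1 * x 1 + S 2 2 * x 2| := by
    rw [abs_mul, abs_of_nonneg hk0]
    exact mul_le_of_le_one_left (abs_nonneg _) hk1
  set A : ℝ := 1 + |S 2 0| + |S 2 1| + |S 2 2| + |S 0 2| + |S 1 2| with hA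
  have hA0 : 0 ≤ A := by positivity
  have h4 : |S 0 2 * x 0 + S 1 2 * x 1 + k * (S 2 0 * x 0 + S 2 1 * x 1 + S 2 2 * x 2)|
      ≤ 3 * A * ‖x‖ := by
    have e : A * ‖x‖ = ‖x‖ + |S 2 0| * ‖x‖ + |S 2 1| * ‖x‖ + |S 2 2| * ‖x‖
        + |S 0 2| * ‖x‖ + |S 1 2| * ‖x‖ := by rw [hA]; ring
    linarith [hm (S 0 2) 0, hm (S 1 2) 1, hm (S 2 0) 0, hm (S 2 1) 1, hm (S 2 2) 2, norm_nonneg x,
      mul_nonneg hA0 (norm_nonneg x)]
  refine (sq_le_sq' (abs_le.1 h4).1 (abs_le.1 h4).2).trans_eq ?_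
  ring

lemma norm_scl_perturb {b c : ℝ} (hb : b ≠ 0) (S : M3) (ε : ℝ) (x : E3) :
    ‖scl b c (x + ε • app S x)‖ ^ 2 = b ^ 2 * ((x 0 ^ 2 + x 1 ^ 2)
      + c ^ 2 / b ^ 2 * x 2 ^ 2
      + 2 * ε * ((x 0 * (S 0 0 * x 0 + S 0 1 * x 1) + x 1 * (S 1 0 * x 0 + S 1 1 * x 1))
        + x 2 * (S 0 2 * x 0 + S 1 2 * x 1
          + c ^ 2 / b ^ 2 * (S 2 0 * x 0 + S 2 1 * x 1 + S 2 2 * x 2)))
      + ε ^ 2 * ((app S x) 0 ^ 2 + (app S x) 1 ^ 2 + c ^ 2 / b ^ 2 * (app S x) 2 ^ 2)) := by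
  rw [normsq3]
  simp [app]
  field_simp
  ring

lemma quad_absorb {ε d lam L F P z β Y n : ℝ} (hε : 0 ≤ ε) (hd : 0 < d)
    (hsmall : |2 * ε * lam| ≤ d / 2) {H : ℝ} (hP : P ≤ lam * H) (hn : n = H + z ^ 2)
    (hβ : β ^ 2 ≤ L * n) (hY : Y ≤ F * n) :
    H + (1 - d) * z ^ 2 + 2 * ε * (P + z * β) + ε ^ 2 * Y
      ≤ (1 + 2 * ε * lam + (F + 2 * L / d) * ε ^ 2) * n := by
  have e : d / 2 * z ^ 2 + 2 / d * ε ^ 2 * β ^ 2 - 2 * ε * (z * β)
      = (d * z - 2 * ε * β) ^ 2 / (2 * d) := by field_simp; ring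
  have h1 : 0 ≤ (d * z - 2 * ε * β) ^ 2 / (2 * d) := by positivity
  have h2 : 2 / d * ε ^ 2 * β ^ 2 ≤ 2 / d * ε ^ 2 * (L * n) :=
    mul_le_mul_of_nonneg_left hβ (by positivity)
  have h3 := mul_le_mul_of_nonneg_left hP (show (0:ℝ) ≤ 2 * ε by positivity)
  have h4 := mul_le_mul_of_nonneg_left hY (sq_nonneg ε)
  have h5 := mul_le_mul_of_nonneg_right (abs_le.1 hsmall).1 (sq_nonneg z)
  have e2 : (1 + 2 * ε * lam + (F + 2 * L / d) * ε ^ 2) * n
      = H + z ^ 2 + 2 * ε * (lam * H) + 2 * ε * lam * z ^ 2 + ε ^ 2 * (F * n)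
        + 2 / d * ε ^ 2 * (L * n) := by rw [hn]; ring
  linarith

lemma norm_perturb {b c lam : ℝ} (hc : 0 < c) (hcb : c ≤ b) (S : M3)
    (hlam : ∀ h : E3, (c < b → h 2 = 0) → qf S (⇑h) ≤ lam * ‖h‖ ^ 2) :
    ∃ C : ℝ, 0 ≤ C ∧ ∀ᶠ ε in 𝓝[>] (0 : ℝ), ∀ x : E3,
      ‖scl b c (x + ε • app S x)‖ ^ 2 ≤ b ^ 2 * ((1 + 2 * ε * lam + C * ε ^ 2) * ‖x‖ ^ 2) := by
  have hb : 0 < b := hc.trans_le hcb
  have hF : 0 ≤ frob S := by unfold frob; positivity
  rcases hcb.eq_or_lt with heq | hlt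
  · refine ⟨frob S, hF, ?_⟩
    filter_upwards [self_mem_nhdsWithin] with ε hε x
    have hq := hlam x (fun h => absurd heq h.ne)
    have e : scl b c (x + ε • app S x) = b • (x + ε • app S x) := by
      subst heq; apply ext3 <;> simp <;> ring
    rw [e, norm_smul, mul_pow, Real.norm_eq_abs, sq_abs, norm_add_sq_real, inner_smul_right,
      inner_app_self, norm_smul, mul_pow, Real.norm_eq_abs, sq_abs]
    refine mul_le_mul_of_nonneg_left ?_ (sq_nonneg b)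
    have hε0 : 0 ≤ ε := le_of_lt hε
    nlinarith [mul_le_mul_of_nonneg_left hq hε0,
      mul_le_mul_of_nonneg_left (norm_app_sq_le S x) (sq_nonneg ε)]
  · set k : ℝ := c ^ 2 / b ^ 2 with hk
    have hk1 : k < 1 := by
      rw [hk, div_lt_one (by positivity)]; nlinarith
    have hk0 : 0 ≤ k := by positivity
    set L : ℝ := 9 * (1 + |S 2 0| + |S 2 1| + |S 2 2| + |S 0 2| + |S 1 2|) ^ 2 with hL
    refine ⟨frob S + 2 * L / (1 - k), by
      have : 0 < 1 - k := by linarith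
      positivity, ?_⟩
    have hev : ∀ᶠ ε in 𝓝[>] (0 : ℝ), |2 * ε * lam| ≤ (1 - k) / 2 := by
      apply Filter.Eventually.filter_mono nhdsWithin_le_nhds
      have : Tendsto (fun ε : ℝ => |2 * ε * lam|) (𝓝 0) (𝓝 0) := by
        simpa using (show Continuous fun ε : ℝ => |2 * ε * lam| by fun_prop).tendsto 0
      exact this.eventually (eventually_le_nhds (by linarith))
    filter_upwards [self_mem_nhdsWithin, hev] with ε hε hsmall x
    have hε0 : 0 ≤ ε := le_of_lt hε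
    set h : E3 := !₂[x 0, x 1, 0] with hh
    have hq := hlam h (fun _ => by simp [hh])
    rw [normsq3] at hq
    simp [hh, qf] at hq
    set y := app S x with hy
    set β : ℝ := S 0 2 * x 0 + S 1 2 * x 1
      + k * (S 2 0 * x 0 + S 2 1 * x 1 + S 2 2 * x 2) with hβ
    have hβ2 : β ^ 2 ≤ L * ‖x‖ ^ 2 := beta_bound hk0 hk1.le S x
    have key := norm_scl_perturb hb.ne' (c := c) S ε x
    rw [← hy, ← hk, ← hβ] at key
    rw [key]
    refine mul_le_mul_of_nonneg_left ?_ (sq_nonneg b)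
    have hy2 : y 0 ^ 2 + y 1 ^ 2 + k * y 2 ^ 2 ≤ frob S * ‖x‖ ^ 2 := by
      refine le_trans ?_ (norm_app_sq_le S x)
      rw [← hy, normsq3 y]
      exact add_le_add_right (mul_le_of_le_one_left (sq_nonneg _) hk1.le) _
    have := quad_absorb (d := 1 - k) hε0 (sub_pos.2 hk1) hsmall hq
      (z := x 2) (n := ‖x‖ ^ 2) (by rw [normsq3]) hβ2 hy2
    rwa [sub_sub_cancel] at this

/-- The key step: a maximal ellipsoid gives two slabs with a large Gram determinant. -/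
theorem core (K : Set E3) (hconv : Convex ℝ K) (hcl : IsClosed K) (hsymm : ∀ x ∈ K, -x ∈ K)
    {b c : ℝ} (hc : 0 < c) (hcb : c ≤ b) (hball : ∀ x : E3, ‖x‖ ≤ 1 → scl b c x ∈ K)
    (hmax : ∀ (M : Matrix (Fin 3) (Fin 3) ℝ) (N : ℝ),
      (∀ x : E3, ‖x‖ ≤ 1 → Matrix.toEuclideanLin M x ∈ K) →
      (∀ x : E3, ‖Matrix.toEuclideanLin M x‖ ≤ N * ‖x‖) → |M.det| ≤ b * c * N) :
    ∃ a₁ a₂ : E3, (∀ x ∈ K, |⟪a₁, x⟫| ≤ 1) ∧ (∀ x ∈ K, |⟪a₂, x⟫| ≤ 1) ∧
      1 / (2 * b ^ 2 * c ^ 2) ≤ gram2 a₁ a₂ := by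
  have hb : 0 < b := hc.trans_le hcb
  set L : Set E3 := {l | ∀ y : E3, scl b c y ∈ K → |⟪l, y⟫| ≤ 1} with hL
  have hLnorm : ∀ l ∈ L, ‖l‖ ≤ 1 := fun l hl => by
    rcases eq_or_ne l 0 with rfl | hl0
    · simp
    · have := hl (‖l‖⁻¹ • l) (hball _ (norm_smul_inv_norm hl0).le)
      rw [inner_smul_right, real_inner_self_eq_norm_sq] at this
      have hp : 0 < ‖l‖ := norm_pos_iff.2 hl0
      rw [abs_of_nonneg (by positivity)] at this
      field_simp at this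
      exact this
  have hLclosed : IsClosed L := by
    rw [hL]
    simp only [Set.setOf_forall]
    exact isClosed_iInter fun y => isClosed_iInter fun _ =>
      isClosed_le (by fun_prop) continuous_const
  have hLcompact : IsCompact L :=
    (isCompact_closedBall (0 : E3) 1).of_isClosed_subset hLclosed fun l hl => by
      simpa using hLnorm l hl
  have bipolar : ∀ y : E3, (∀ l ∈ L, |⟪l, y⟫| ≤ 1) → scl b c y ∈ K := fun y hy => by
    by_contra hnot
    obtain ⟨f, s, hfs, hsy⟩ := geometric_hahn_banach_closed_point hconv hcl hnot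
    set n := (InnerProductSpace.toDual ℝ E3).symm f with hn
    have hf : ∀ x, f x = ⟪n, x⟫ := fun x => by
      rw [hn, InnerProductSpace.toDual_symm_apply]
    have h0 : (0 : E3) ∈ K := by
      have := hball 0 (by simp)
      rwa [show scl b c (0 : E3) = 0 by apply ext3 <;> simp] at this
    have hs : 0 < s := by simpa using hfs 0 h0
    have hsa : ∀ z, ⟪scl b c n, z⟫ = ⟪n, scl b c z⟫ := fun z => by
      rw [inner3, inner3]; simp; ring
    have hl : s⁻¹ • scl b c n ∈ L := fun z hz => by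
      rw [real_inner_smul_left, hsa, abs_mul, abs_of_pos (inv_pos.2 hs), inv_mul_le_iff₀ hs, mul_one]
      have h1 := hfs _ hz
      have h2 := hfs _ (hsymm _ hz)
      rw [hf] at h1 h2
      rw [inner_neg_right] at h2
      exact abs_le.2 ⟨by linarith, by linarith⟩
    have := (abs_le.1 (hy _ hl)).2
    rw [real_inner_smul_left, hsa, inv_mul_le_iff₀ hs, mul_one] at this
    rw [hf] at hsy
    linarith
  have mk : ∀ l ∈ L, ∀ x ∈ K, |⟪scl b⁻¹ c⁻¹ l, x⟫| ≤ 1 := fun l hl x hx => by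
    have : ⟪scl b⁻¹ c⁻¹ l, x⟫ = ⟪l, scl b⁻¹ c⁻¹ x⟫ := by rw [inner3, inner3]; simp; ring
    rw [this]
    apply hl
    rwa [scl_scl, mul_inv_cancel₀ hb.ne', mul_inv_cancel₀ hc.ne', scl_id]
  set U : Set (Fin 3 → ℝ) := (fun l : E3 => (⇑l : Fin 3 → ℝ)) '' (L ∩ Metric.sphere 0 1) with hUdef
  have hU : IsCompact U :=
    (hLcompact.inter_right Metric.isClosed_sphere).image (PiLp.continuous_ofLp 2 _)
  set k : ℝ := c ^ 2 / b ^ 2 with hk
  rcases separation U hU (by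
      rintro _ ⟨l, ⟨-, hl⟩, rfl⟩
      rw [← normsq3, mem_sphere_zero_iff_norm.1 hl, one_pow])
      (flag := c < b) (k := k) (by positivity) (fun h => by
        have : c = b := le_antisymm hcb (not_lt.1 h)
        rw [hk, this, div_self (by positivity)]) with ⟨_, ⟨l, ⟨hl, -⟩, rfl⟩, _, ⟨l', ⟨hl', -⟩, rfl⟩, hq⟩ | ⟨S, hS, hneg, hpos⟩
  · refine ⟨_, _, mk l hl, mk l' hl', ?_⟩
    have e : gram2 (scl b⁻¹ c⁻¹ l) (scl b⁻¹ c⁻¹ l')
        = crossq k (⇑l) (⇑l') / (b ^ 2 * c ^ 2) := by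
      rw [gram2, normsq3, normsq3, inner3, hk]
      simp [crossq]
      field_simp
      ring
    rw [e, div_le_div_iff₀ (by positivity) (by positivity)]
    nlinarith [show 0 < b ^ 2 * c ^ 2 by positivity]
  · exfalso
    have hWne : ({w : E3 | (c < b → w 2 = 0)} ∩ Metric.sphere 0 1).Nonempty :=
      ⟨EuclideanSpace.single 0 1, fun _ => by simp, by simp⟩
    have hWc : IsCompact ({w : E3 | (c < b → w 2 = 0)} ∩ Metric.sphere 0 1) := by
      refine (isCompact_sphere (0 : E3) 1).inter_left ?_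
      simp only [Set.setOf_forall]
      exact isClosed_iInter fun _ => isClosed_eq (by fun_prop) continuous_const
    obtain ⟨w, ⟨hw2, hw1⟩, hwmax⟩ := hWc.exists_isMaxOn hWne
      (f := fun w : E3 => qf S (⇑w)) (by unfold qf; fun_prop)
    set lam := qf S (⇑w) with hlam0
    have htr : lam < S 0 0 + S 1 1 + S 2 2 := by
      rw [mem_sphere_zero_iff_norm] at hw1
      have hw1' : w 0 ^ 2 + w 1 ^ 2 + w 2 ^ 2 = 1 := by rw [← normsq3, hw1, one_pow]
      set G : M3 := fun i j => ((if i = j then 1 else 0) - w i * w j) / 2 with hG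
      have hmem : G ∈ grads (c < b) := by
        refine ⟨?_, ?_, ?_, ?_, fun v => ?_, fun hf => ?_⟩
        · simp [hG]; ring
        · simp [hG]; ring
        · simp [hG]; ring
        · simp [hG]; linarith
        · simp [hG, qf]
          nlinarith [sq_nonneg (w 0 * v 0 + w 1 * v 1 + w 2 * v 2)]
        · simp [hG, hw2 hf]
      have hp := hpos G hmem
      have e : pair S G = ((S 0 0 + S 1 1 + S 2 2) - lam) / 2 := by
        simp [pair, hG, hlam0, qf, Fin.sum_univ_three]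
        ring
      linarith
    have hlam : ∀ h : E3, (c < b → h 2 = 0) → qf S (⇑h) ≤ lam * ‖h‖ ^ 2 := fun h hh => by
      rcases eq_or_ne h 0 with rfl | h0
      · simp [qf]
      · have hmem : ‖h‖⁻¹ • h ∈ ({w : E3 | (c < b → w 2 = 0)} ∩ Metric.sphere 0 1) :=
          ⟨fun hf => by simp [hh hf], mem_sphere_zero_iff_norm.2 (norm_smul_inv_norm h0)⟩
        have := hwmax hmem
        change qf S (⇑(‖h‖⁻¹ • h)) ≤ lam at this
        simp only [qf, PiLp.smul_apply, smul_eq_mul] at this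
        have hp : 0 < ‖h‖ := norm_pos_iff.2 h0
        have e : qf S (⇑h) = ‖h‖ ^ 2 * qf S (fun i => ‖h‖⁻¹ * h i) := by
          simp [qf]; field_simp
        rw [e, mul_comm]
        exact mul_le_mul_of_nonneg_right (by simpa [qf] using this) (by positivity)
    have hfeas : ∀ᶠ ε in 𝓝[>] (0 : ℝ), ∀ l ∈ L, ‖l + ε • app S l‖ ^ 2 ≤ 1 := by
      set F := frob S with hF
      have hF0 : 0 ≤ F := by rw [hF]; unfold frob; positivity
      obtain ⟨η, hη, hηN⟩ : ∃ η > 0, ∀ l ∈ L, ‖l‖ = 1 → qf S (⇑l) ≤ -η := by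
        rcases (L ∩ Metric.sphere (0 : E3) 1).eq_empty_or_nonempty with he | hne
        · refine ⟨1, one_pos, fun l hl hl1 => ?_⟩
          have : l ∈ L ∩ Metric.sphere (0 : E3) 1 := ⟨hl, by simpa using hl1⟩
          simp [he] at this
        · obtain ⟨l₀, hl₀, hmax⟩ := (hLcompact.inter_right Metric.isClosed_sphere).exists_isMaxOn hne
            (f := fun l : E3 => qf S (⇑l)) (by unfold qf; fun_prop)
          exact ⟨-qf S (⇑l₀), neg_pos.2 (hneg _ ⟨l₀, hl₀, rfl⟩), fun l hl hl1 => by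
            simpa using hmax (show l ∈ L ∩ Metric.sphere (0 : E3) 1 from ⟨hl, by simpa using hl1⟩)⟩
      obtain ⟨ρ, hρ, hρL⟩ : ∃ ρ < (1 : ℝ), ∀ l ∈ L, -η / 2 ≤ qf S (⇑l) → ‖l‖ ^ 2 ≤ ρ := by
        have hc' : IsCompact (L ∩ {l : E3 | -η / 2 ≤ qf S (⇑l)}) :=
          hLcompact.inter_right (isClosed_le continuous_const (by unfold qf; fun_prop))
        rcases (L ∩ {l : E3 | -η / 2 ≤ qf S (⇑l)}).eq_empty_or_nonempty with he | hne
        · refine ⟨0, one_pos, fun l hl hq => ?_⟩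
          have : l ∈ L ∩ {l : E3 | -η / 2 ≤ qf S (⇑l)} := ⟨hl, hq⟩
          simp [he] at this
        · obtain ⟨l₀, hl₀, hmax⟩ := hc'.exists_isMaxOn hne
            (f := fun l : E3 => ‖l‖ ^ 2) (by fun_prop)
          refine ⟨‖l₀‖ ^ 2, ?_, fun l hl hq => hmax ⟨hl, hq⟩⟩
          rcases (hLnorm l₀ hl₀.1).lt_or_eq with h | h
          · exact pow_lt_one₀ (norm_nonneg _) h two_ne_zero
          · linarith [hηN l₀ hl₀.1 h, hl₀.2.out]
      have hev : ∀ᶠ ε in 𝓝[>] (0 : ℝ), ε * F ≤ η ∧ 2 * ε * (F + 1) + ε ^ 2 * F ≤ 1 - ρ := by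
        apply Filter.Eventually.filter_mono nhdsWithin_le_nhds
        have h1 : Tendsto (fun ε : ℝ => ε * F) (𝓝 0) (𝓝 0) := by
          simpa using (show Continuous fun ε : ℝ => ε * F by fun_prop).tendsto 0
        have h2 : Tendsto (fun ε : ℝ => 2 * ε * (F + 1) + ε ^ 2 * F) (𝓝 0) (𝓝 0) := by
          simpa using (show Continuous fun ε : ℝ => 2 * ε * (F + 1) + ε ^ 2 * F by fun_prop).tendsto 0
        exact (h1.eventually (eventually_le_nhds hη)).and
          (h2.eventually (eventually_le_nhds (by linarith)))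
      filter_upwards [self_mem_nhdsWithin, hev] with ε hε ⟨hε1, hε2⟩ l hl
      have hε0 : 0 ≤ ε := le_of_lt hε
      rw [norm_add_sq_real, inner_smul_right, inner_app_self, norm_smul, mul_pow, Real.norm_eq_abs,
        sq_abs]
      have hl2 : ‖l‖ ^ 2 ≤ 1 := pow_le_one₀ (norm_nonneg _) (hLnorm l hl)
      have hA : ‖app S l‖ ^ 2 ≤ F := (norm_app_sq_le S l).trans (mul_le_of_le_one_right hF0 hl2)
      rcases le_or_gt (-η / 2) (qf S (⇑l)) with hq | hq
      · have h1 := hρL l hl hq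
        have h2 : qf S (⇑l) ≤ F + 1 := by
          rw [← inner_app_self]
          refine (real_inner_le_norm _ _).trans ?_
          nlinarith [norm_nonneg l, norm_nonneg (app S l), sq_nonneg (‖l‖ - ‖app S l‖)]
        nlinarith [mul_le_mul_of_nonneg_left h2 hε0, mul_le_mul_of_nonneg_left hA (sq_nonneg ε)]
      · nlinarith [mul_le_mul_of_nonneg_left hq.le hε0,
          mul_le_mul_of_nonneg_left hA (sq_nonneg ε), mul_le_mul_of_nonneg_left hε1 hε0]
    obtain ⟨C, hC0, hnorm⟩ := norm_perturb hc hcb S hlam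
    set τ := S 0 0 + S 1 1 + S 2 2 with hτ
    set q2 := (S 0 0 * S 1 1 - S 0 1 * S 1 0) + (S 0 0 * S 2 2 - S 0 2 * S 2 0)
      + (S 1 1 * S 2 2 - S 1 2 * S 2 1) with hq2
    set q3 := Matrix.det (Matrix.of S) with hq3
    have hev : ∀ᶠ ε in 𝓝[>] (0 : ℝ),
        |ε * lam| ≤ 1 / 2 ∧ (C - q2) * ε - q3 * ε ^ 2 < τ - lam ∧
          0 ≤ 1 + ε * lam + C * ε ^ 2 := by
      apply Filter.Eventually.filter_mono nhdsWithin_le_nhds
      have h1 : Tendsto (fun ε : ℝ => |ε * lam|) (𝓝 0) (𝓝 0) := by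
        simpa using (show Continuous fun ε : ℝ => |ε * lam| by fun_prop).tendsto 0
      have h2 : Tendsto (fun ε : ℝ => (C - q2) * ε - q3 * ε ^ 2) (𝓝 0) (𝓝 0) := by
        simpa using (show Continuous fun ε : ℝ => (C - q2) * ε - q3 * ε ^ 2 by fun_prop).tendsto 0
      filter_upwards [h1.eventually (eventually_le_nhds (show (0:ℝ) < 1/2 by norm_num)),
        h2.eventually (eventually_lt_nhds (sub_pos.2 htr))] with ε a1 a2
      exact ⟨a1, a2, by nlinarith [(abs_le.1 a1).1]⟩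
    obtain ⟨ε, hf, hn, ⟨e1, e2, e3⟩, hε⟩ :=
      (hfeas.and (hnorm.and (hev.and self_mem_nhdsWithin))).exists
    have hε0 : 0 < ε := hε
    have hMK : ∀ x : E3, ‖x‖ ≤ 1 → Matrix.toEuclideanLin (pmat b c ε S) x ∈ K := fun x hx => by
      rw [pmat_apply]
      refine bipolar _ fun l hl => ?_
      have : ⟪l, x + ε • app S x⟫ = ⟪l + ε • app S l, x⟫ := by
        rw [inner_add_right, inner_add_left, inner_smul_right, real_inner_smul_left, inner_app S hS]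
      rw [this]
      refine (abs_real_inner_le_norm _ _).trans ?_
      have : ‖l + ε • app S l‖ ≤ 1 := by
        nlinarith [hf l hl, norm_nonneg (l + ε • app S l)]
      exact mul_le_one₀ this (norm_nonneg _) hx
    have hMN : ∀ x : E3, ‖Matrix.toEuclideanLin (pmat b c ε S) x‖
        ≤ b * (1 + ε * lam + C * ε ^ 2) * ‖x‖ := fun x => by
      rw [pmat_apply]
      refine le_of_pow_le_pow_left₀ two_ne_zero (by positivity) ((hn x).trans ?_)
      rw [mul_pow, mul_pow, ← mul_assoc]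
      refine mul_le_mul_of_nonneg_right (mul_le_mul_of_nonneg_left ?_ (sq_nonneg b)) (sq_nonneg _)
      have h1 : 0 ≤ 1 / 2 + ε * lam := by linarith [(abs_le.1 e1).1]
      nlinarith [sq_nonneg (ε * lam), mul_nonneg (mul_nonneg hC0 (sq_nonneg ε)) h1,
        sq_nonneg (C * ε ^ 2)]
    have := hmax _ _ hMK hMN
    have hdet : (pmat b c ε S).det = b ^ 2 * c * (1 + ε * τ + ε ^ 2 * q2 + ε ^ 3 * q3) := by
      rw [hτ, hq2, hq3, pmat, Matrix.det_fin_three, Matrix.det_fin_three]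
      simp
      ring
    have h' := (le_abs_self _).trans this
    rw [hdet] at h'
    have h'' : 1 + ε * τ + ε ^ 2 * q2 + ε ^ 3 * q3 ≤ 1 + ε * lam + C * ε ^ 2 := by
      refine le_of_mul_le_mul_left ?_ (show 0 < b ^ 2 * c by positivity)
      linarith
    have h3 := mul_lt_mul_of_pos_left e2 hε0
    have e4 : ε * ((C - q2) * ε - q3 * ε ^ 2) = C * ε ^ 2 - ε ^ 2 * q2 - ε ^ 3 * q3 := by ring
    have e5 : ε * (τ - lam) = ε * τ - ε * lam := by ring
    clear_value τ lam q2 q3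
    linarith only [h3, e4, e5, h'']

end Vale.Agent.P243
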