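import Vale.Agent.P243.Mass
import Vale.Agent.P243.Optim

/-!
# P243: the half-area inequality for centrally symmetric bodies
-/

open MeasureTheory Filter Topology
open scoped RealInnerProductSpace ENNReal

namespace Vale.Agent.P243

lemma abs_det_le_norm_cube (A : E3 →L[ℝ] E3) :
    |LinearMap.det (A : E3 →ₗ[ℝ] E3)| ≤ ‖A‖ ^ 3 := by
  have h := Measure.addHaar_image_continuousLinearMap (volume : Measure E3) A (Metric.closedBall 0 1)
  have hsub : A '' Metric.closedBall 0 1 ⊆ Metric.closedBall 0 ‖A‖ := by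
    rintro _ ⟨x, hx, rfl⟩
    rw [mem_closedBall_zero_iff] at hx ⊢
    exact (A.le_opNorm x).trans (mul_le_of_le_one_right (norm_nonneg _) hx)
  have h2 := measure_mono (μ := (volume : Measure E3)) hsub
  rw [h, Measure.addHaar_closedBall' _ _ (norm_nonneg A), finrank_euclideanSpace_fin] at h2
  have hpos : volume (Metric.closedBall (0 : E3) 1) ≠ 0 :=
    (Metric.measure_closedBall_pos _ _ one_pos).ne'
  have hfin : volume (Metric.closedBall (0 : E3) 1) ≠ ⊤ := measure_closedBall_lt_top.ne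
  have h3 := (ENNReal.mul_le_mul_iff_left hpos hfin).1 h2
  rwa [ENNReal.ofReal_le_ofReal_iff (by positivity)] at h3

/-- The objective: least shadow of the ellipsoid, up to the factor `π`. -/
noncomputable def minShadowFn (A : E3 →L[ℝ] E3) : ℝ :=
  |LinearMap.det (A : E3 →ₗ[ℝ] E3)| / ‖A‖

lemma continuous_minShadowFn : Continuous minShadowFn := by
  have hdet : Continuous fun A : E3 →L[ℝ] E3 => |LinearMap.det (A : E3 →ₗ[ℝ] E3)| :=
    continuous_abs.comp ContinuousLinearMap.continuous_det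
  rw [continuous_iff_continuousAt]
  intro A
  rcases eq_or_ne A 0 with rfl | hA
  · have h0 : Tendsto (fun A : E3 →L[ℝ] E3 => ‖A‖ ^ 2) (𝓝 0) (𝓝 0) := by
      simpa using (show Continuous fun A : E3 →L[ℝ] E3 => ‖A‖ ^ 2 by fun_prop).tendsto 0
    have : minShadowFn 0 = 0 := by simp [minShadowFn]
    rw [ContinuousAt, this]
    refine squeeze_zero (fun A => by unfold minShadowFn; positivity) (fun A => ?_) h0
    rcases eq_or_ne A 0 with rfl | hA
    · simp [minShadowFn]
    · rw [minShadowFn, div_le_iff₀ (norm_pos_iff.2 hA)]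
      linarith [abs_det_le_norm_cube A, show ‖A‖ ^ 2 * ‖A‖ = ‖A‖ ^ 3 by ring]
  · exact hdet.continuousAt.div continuous_norm.continuousAt (norm_ne_zero_iff.2 hA)

lemma exists_max (K : Set E3) (hK : IsCompact K) {r : ℝ} (hr : 0 < r)
    (hball : Metric.closedBall 0 r ⊆ K) :
    ∃ A : E3 →L[ℝ] E3, (∀ x : E3, ‖x‖ ≤ 1 → A x ∈ K) ∧ LinearMap.det (A : E3 →ₗ[ℝ] E3) ≠ 0 ∧
      ∀ B : E3 →L[ℝ] E3, (∀ x : E3, ‖x‖ ≤ 1 → B x ∈ K) → minShadowFn B ≤ minShadowFn A := by
  set 𝒜 : Set (E3 →L[ℝ] E3) := {A | ∀ x : E3, ‖x‖ ≤ 1 → A x ∈ K} with h𝒜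
  have hclosed : IsClosed 𝒜 := by
    rw [h𝒜]
    simp only [Set.setOf_forall]
    exact isClosed_iInter fun x => isClosed_iInter fun _ =>
      hK.isClosed.preimage (ContinuousLinearMap.apply ℝ E3 x).continuous
  obtain ⟨R, hR⟩ := hK.isBounded.subset_closedBall 0
  have hR0 : 0 ≤ R := by
    have := hR (hball (Metric.mem_closedBall_self hr.le))
    simpa using this
  have : ProperSpace (E3 →L[ℝ] E3) := FiniteDimensional.proper ℝ _
  have hbdd : 𝒜 ⊆ Metric.closedBall 0 R := fun A hA => by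
    rw [mem_closedBall_zero_iff]
    refine A.opNorm_le_bound hR0 fun x => ?_
    rcases eq_or_ne x 0 with rfl | hx
    · simp
    · have h := hR (hA (‖x‖⁻¹ • x) (norm_smul_inv_norm hx).le)
      rw [mem_closedBall_zero_iff, map_smul, norm_smul, norm_inv, norm_norm,
        inv_mul_le_iff₀ (norm_pos_iff.2 hx)] at h
      linarith
  have hcpt : IsCompact 𝒜 := (isCompact_closedBall 0 R).of_isClosed_subset hclosed hbdd
  have hmem : r • ContinuousLinearMap.id ℝ E3 ∈ 𝒜 := fun x hx => hball (by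
    simpa [norm_smul, abs_of_pos hr] using mul_le_of_le_one_right hr.le hx)
  obtain ⟨A, hA, hmax⟩ := hcpt.exists_isMaxOn ⟨_, hmem⟩ continuous_minShadowFn.continuousOn
  refine ⟨A, hA, fun h0 => ?_, fun B hB => hmax hB⟩
  have h := hmax hmem
  have hA0 : minShadowFn A = 0 := by simp [minShadowFn, h0]
  have hpos : 0 < minShadowFn (r • ContinuousLinearMap.id ℝ E3) := by
    unfold minShadowFn
    refine div_pos ?_ ?_
    · rw [ContinuousLinearMap.coe_smul, LinearMap.det_smul]
      simp [hr.ne']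
    · rw [norm_smul, Real.norm_eq_abs, abs_of_pos hr]
      exact mul_pos hr (norm_pos_iff.2 fun h => by
        have := DFunLike.congr_fun h (EuclideanSpace.single 0 (1 : ℝ))
        simp at this)
  exact absurd (hA0 ▸ h) (not_le.2 hpos)

lemma abs_det_isometry (R : E3 ≃ₗᵢ[ℝ] E3) :
    |LinearMap.det (R.toLinearEquiv : E3 →ₗ[ℝ] E3)| = 1 := by
  have h := Measure.addHaar_image_linearMap (volume : Measure E3)
    (R.toLinearEquiv : E3 →ₗ[ℝ] E3) (Metric.closedBall 0 1)
  have himg : (R.toLinearEquiv : E3 →ₗ[ℝ] E3) '' Metric.closedBall 0 1 = Metric.closedBall 0 1 := by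
    show R '' Metric.closedBall 0 1 = _
    rw [R.image_closedBall, map_zero]
  rw [himg] at h
  have hpos : volume (Metric.closedBall (0 : E3) 1) ≠ 0 :=
    (Metric.measure_closedBall_pos _ _ one_pos).ne'
  have hfin : volume (Metric.closedBall (0 : E3) 1) ≠ ⊤ := measure_closedBall_lt_top.ne
  have h' : ENNReal.ofReal |LinearMap.det (R.toLinearEquiv : E3 →ₗ[ℝ] E3)| = 1 := by
    refine (ENNReal.mul_left_inj hpos hfin).1 ?_
    rw [one_mul]
    exact h.symm
  simpa using (ENNReal.ofReal_eq_one).1 h'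

lemma exists_axes (A : E3 →L[ℝ] E3) (hA : LinearMap.det (A : E3 →ₗ[ℝ] E3) ≠ 0) :
    ∃ (a b c : ℝ) (R R' : E3 ≃ₗᵢ[ℝ] E3), 0 < c ∧ c ≤ b ∧ b ≤ a ∧
      ∀ x : E3, A (R' x) = R (!₂[a * x 0, b * x 1, c * x 2]) := by
  have hinj : Function.Injective (A : E3 →ₗ[ℝ] E3) :=
    (LinearMap.equivOfDetNeZero _ hA).injective
  set T : E3 →ₗ[ℝ] E3 := (ContinuousLinearMap.adjoint A : E3 →L[ℝ] E3).toLinearMap ∘ₗ
    (A : E3 →ₗ[ℝ] E3) with hT
  have hTs : T.IsSymmetric := fun x y => by
    simp [hT, ContinuousLinearMap.adjoint_inner_left, ContinuousLinearMap.adjoint_inner_right]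
  set f : OrthonormalBasis (Fin 3) ℝ E3 := hTs.eigenvectorBasis finrank_euclideanSpace_fin with hf
  set lam : Fin 3 → ℝ := hTs.eigenvalues finrank_euclideanSpace_fin with hlam
  have hin : ∀ i j, ⟪A (f i), A (f j)⟫ = if i = j then lam j else 0 := fun i j => by
    have h1 : T (f j) = lam j • f j := hTs.apply_eigenvectorBasis finrank_euclideanSpace_fin j
    have h2 : ⟪A (f i), A (f j)⟫ = ⟪f i, T (f j)⟫ := by
      simp [hT, ContinuousLinearMap.adjoint_inner_right]
    rw [h2, h1, inner_smul_right, f.inner_eq_ite]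
    simp
  have hpos : ∀ i, 0 < lam i := fun i => by
    have := hin i i
    rw [if_pos rfl, real_inner_self_eq_norm_sq] at this
    rw [← this]
    have : A (f i) ≠ 0 := fun h => f.orthonormal.ne_zero i (hinj (by simpa using h))
    positivity
  set e : Fin 3 → E3 := fun i => (Real.sqrt (lam i))⁻¹ • A (f i) with he
  have heo : Orthonormal ℝ e := orthonormal_iff_ite.2 fun i j => by
    simp only [he, real_inner_smul_left, inner_smul_right, hin]
    split_ifs with h
    · subst h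
      rw [← mul_assoc, ← mul_inv, Real.mul_self_sqrt (hpos i).le, inv_mul_cancel₀ (hpos i).ne']
    · simp
  have hspan : ⊤ ≤ Submodule.span ℝ (Set.range e) := by
    rw [heo.linearIndependent.span_eq_top_of_card_eq_finrank (by simp)]
  set g : OrthonormalBasis (Fin 3) ℝ E3 := OrthonormalBasis.mk heo hspan with hg
  refine ⟨Real.sqrt (lam 0), Real.sqrt (lam 1), Real.sqrt (lam 2), g.repr.symm, f.repr.symm,
    Real.sqrt_pos.2 (hpos 2), Real.sqrt_le_sqrt (hTs.eigenvalues_antitone _ (by decide)),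
    Real.sqrt_le_sqrt (hTs.eigenvalues_antitone _ (by decide)), fun x => ?_⟩
  rw [← f.sum_repr_symm, ← g.sum_repr_symm, map_sum, Fin.sum_univ_three, Fin.sum_univ_three]
  simp only [map_smul, hg, OrthonormalBasis.coe_mk, he, smul_smul]
  simp only [Matrix.cons_val_zero, Matrix.cons_val_one, Matrix.cons_val]
  have hs : ∀ i, Real.sqrt (lam i) * x i * (Real.sqrt (lam i))⁻¹ = x i := fun i => by
    have := (Real.sqrt_pos.2 (hpos i)).ne'
    field_simp
  rw [hs 0, hs 1, hs 2]

/-- The constant. -/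
noncomputable def symConst : ℝ := Real.sqrt 2 * Real.pi / 8

lemma half_lt_symConst : 1 / 2 < symConst := by
  have h2 : (1.4 : ℝ) < Real.sqrt 2 := by
    rw [Real.lt_sqrt (by norm_num)]; norm_num
  have h3 := Real.pi_gt_three
  unfold symConst
  nlinarith

/-- The origin symmetric case. -/
theorem centered_bound (K : Set E3) (hK : IsCompact K) (hconv : Convex ℝ K)
    (hint : (interior K).Nonempty) (hsymm : ∀ x ∈ K, -x ∈ K)
    {ι : Type*} [Countable ι] (u : ι → E3) (hu : ∀ i, ‖u i‖ = 1)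
    (B : ∀ i, Set (plane (u i))) (hcov : K ⊆ ⋃ i, cylinder (u i) (B i)) :
    ∃ v : E3, ‖v‖ = 1 ∧
      ENNReal.ofReal symConst * shadowArea v K ≤ ∑' i, volume (B i) := by
  obtain ⟨r, hr, hball⟩ : ∃ r > 0, Metric.closedBall (0 : E3) r ⊆ K := by
    obtain ⟨x, hx⟩ := hint
    obtain ⟨r, hr, hsub⟩ := Metric.nhds_basis_closedBall.mem_iff.1 (mem_interior_iff_mem_nhds.1 hx)
    refine ⟨r, hr, fun y hy => ?_⟩
    rw [mem_closedBall_zero_iff] at hy
    have h1 : x + y ∈ K := hsub (by simpa using hy)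
    have h2 : -x + y ∈ K := by
      have := hsymm _ (hsub (show x - y ∈ Metric.closedBall x r by simpa using hy))
      rwa [neg_sub, sub_eq_add_neg, add_comm] at this
    have := hconv h1 h2 (show (0:ℝ) ≤ 1/2 by norm_num) (show (0:ℝ) ≤ 1/2 by norm_num) (by norm_num)
    convert this using 1
    module
  obtain ⟨A, hAK, hAdet, hAmax⟩ := exists_max K hK hr hball
  obtain ⟨a, b, c, R, R', hc, hcb, hba, hAx⟩ := exists_axes A hAdet
  have hb : 0 < b := hc.trans_le hcb
  have ha : 0 < a := hb.trans_le hba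
  set K₀ : Set E3 := R ⁻¹' K with hK₀
  have hdiag : ∀ x : E3, ‖x‖ ≤ 1 → scl b c x ∈ K₀ := fun x hx => by
    set y : E3 := !₂[b / a * x 0, x 1, x 2] with hy
    have hyn : ‖y‖ ≤ 1 := by
      have : ‖y‖ ^ 2 ≤ ‖x‖ ^ 2 := by
        have h1 : (b / a) ^ 2 * x 0 ^ 2 ≤ x 0 ^ 2 :=
          mul_le_of_le_one_left (sq_nonneg _) (pow_le_one₀ (by positivity) ((div_le_one ha).2 hba))
        rw [normsq3, normsq3]
        simp [hy]
        linarith [show (b / a * x 0) ^ 2 = (b / a) ^ 2 * x 0 ^ 2 by ring]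
      exact (le_of_pow_le_pow_left₀ two_ne_zero (norm_nonneg _) this).trans hx
    have := hAK (R' y) (by rwa [R'.norm_map])
    rw [hAx] at this
    show R _ ∈ K
    convert this using 2
    apply ext3 <;> simp [hy]
    field_simp
  set D : Matrix (Fin 3) (Fin 3) ℝ := Matrix.diagonal ![a, b, c] with hD
  have hDx : ∀ x, Matrix.toEuclideanLin D x = (!₂[a * x 0, b * x 1, c * x 2] : E3) := fun x => by
    apply ext3 <;> simp [hD, Matrix.toLpLin_apply, Matrix.mulVec_diagonal]
  have hFA : minShadowFn A ≤ b * c := by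
    have e : (A : E3 →ₗ[ℝ] E3) ∘ₗ (R'.toLinearEquiv : E3 →ₗ[ℝ] E3)
        = (R.toLinearEquiv : E3 →ₗ[ℝ] E3) ∘ₗ Matrix.toEuclideanLin D :=
      LinearMap.ext fun x => by simp [hAx, hDx]
    have h := congrArg (fun f => |LinearMap.det f|) e
    simp only [LinearMap.det_comp, abs_mul, abs_det_isometry, mul_one, one_mul] at h
    have hdet : |LinearMap.det (Matrix.toEuclideanLin D)| = a * b * c := by
      rw [Matrix.toEuclideanLin_eq_toLin_orthonormal, LinearMap.det_toLin]
      simp [hD, Matrix.det_diagonal, Fin.prod_univ_three]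
      rw [abs_of_pos ha, abs_of_pos hb, abs_of_pos hc]
    have hnorm : a ≤ ‖A‖ := by
      have := A.le_opNorm (R' (EuclideanSpace.single 0 1))
      rw [hAx, R.norm_map, R'.norm_map] at this
      have e0 : (!₂[a * (EuclideanSpace.single 0 (1:ℝ) : E3) 0, b * (EuclideanSpace.single 0 (1:ℝ) : E3) 1,
          c * (EuclideanSpace.single 0 (1:ℝ) : E3) 2] : E3) = EuclideanSpace.single 0 a := by
        apply ext3 <;> simp
      rw [e0] at this
      simpa [abs_of_pos ha] using this
    rw [minShadowFn, h, hdet, div_le_iff₀ (ha.trans_le hnorm)]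
    have hbc : 0 ≤ b * c := by positivity
    nlinarith [mul_le_mul_of_nonneg_left hnorm hbc]
  have hmax : ∀ (M : Matrix (Fin 3) (Fin 3) ℝ) (N : ℝ),
      (∀ x : E3, ‖x‖ ≤ 1 → Matrix.toEuclideanLin M x ∈ K₀) →
      (∀ x : E3, ‖Matrix.toEuclideanLin M x‖ ≤ N * ‖x‖) → |M.det| ≤ b * c * N := by
    intro M N hMK hMN
    set L : E3 →ₗ[ℝ] E3 := (R.toLinearEquiv : E3 →ₗ[ℝ] E3) ∘ₗ Matrix.toEuclideanLin M with hL
    set B₀ : E3 →L[ℝ] E3 := LinearMap.toContinuousLinearMap L with hB₀
    have hBx : ∀ x, B₀ x = R (Matrix.toEuclideanLin M x) := fun x => rfl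
    have hB : ∀ x : E3, ‖x‖ ≤ 1 → B₀ x ∈ K := fun x hx => hMK x hx
    have hdet : |LinearMap.det (B₀ : E3 →ₗ[ℝ] E3)| = |M.det| := by
      rw [show (B₀ : E3 →ₗ[ℝ] E3) = L from rfl, hL, LinearMap.det_comp, abs_mul, abs_det_isometry,
        one_mul, Matrix.toEuclideanLin_eq_toLin_orthonormal, LinearMap.det_toLin]
    rcases eq_or_ne M.det 0 with h0 | h0
    · rw [h0, abs_zero]
      have hN : 0 ≤ N := by
        have := (norm_nonneg _).trans (hMN (EuclideanSpace.single 0 1))
        simpa using this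
      positivity
    have hne : 0 < ‖B₀‖ := norm_pos_iff.2 fun h => h0 (abs_eq_zero.1 (by
      rw [← hdet, h]; simp))
    have hN : ‖B₀‖ ≤ N := by
      refine B₀.opNorm_le_bound ?_ fun x => by rw [hBx, R.norm_map]; exact hMN x
      simpa using (norm_nonneg _).trans (hMN (EuclideanSpace.single 0 1))
    have h := (hAmax B₀ hB).trans hFA
    rw [minShadowFn, hdet, div_le_iff₀ hne] at h
    exact h.trans (mul_le_mul_of_nonneg_left hN (by positivity))
  obtain ⟨a₁, a₂, h₁, h₂, hgram⟩ := core K₀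
    (hconv.linear_preimage (R.toLinearEquiv : E3 →ₗ[ℝ] E3))
    (hK.isClosed.preimage R.continuous)
    (fun x hx => by show R (-x) ∈ K; rw [map_neg]; exact hsymm _ hx) hc hcb hdiag hmax
  have hsl : ∀ a' : E3, (∀ x ∈ K₀, |⟪a', x⟫| ≤ 1) → ∀ x ∈ K, |⟪R a', x⟫| ≤ 1 := fun a' ha' x hx => by
    rw [← R.apply_symm_apply x, R.inner_map_map]
    exact ha' _ (show R (R.symm x) ∈ K by rwa [R.apply_symm_apply])
  have hg : gram2 (R a₁) (R a₂) = gram2 a₁ a₂ := by
    simp [gram2, R.norm_map, R.inner_map_map]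
  have hgpos : 0 < gram2 (R a₁) (R a₂) := by
    rw [hg]; exact lt_of_lt_of_le (by positivity) hgram
  obtain ⟨v, hv, hshadow⟩ := exists_small_shadow K (R a₁) (R a₂) (hsl a₁ h₁) (hsl a₂ h₂) hgpos
  refine ⟨v, hv, ?_⟩
  -- the covering side
  let T : E3 ≃ₗ[ℝ] E3 :=
    { toFun := fun x => R (scl b c x)
      invFun := fun y => scl b⁻¹ c⁻¹ (R.symm y)
      map_add' := fun x y => by
        rw [← map_add]; congr 1; apply ext3 <;> simp <;> ring
      map_smul' := fun s x => by
        rw [RingHom.id_apply, ← map_smul]; congr 1; apply ext3 <;> simp <;> ring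
      left_inv := fun x => by
        simp [scl_scl, hb.ne', hc.ne', scl_id]
      right_inv := fun y => by
        simp [scl_scl, hb.ne', hc.ne', scl_id] }
  let Tc : E3 ≃L[ℝ] E3 := T.toContinuousLinearEquiv
  have hTnorm : ∀ x, ‖Tc x‖ ≤ b * ‖x‖ := fun x => by
    show ‖R (scl b c x)‖ ≤ _
    rw [R.norm_map]
    refine le_of_pow_le_pow_left₀ two_ne_zero (by positivity) ?_
    rw [mul_pow, normsq3, normsq3]
    simp
    nlinarith [mul_le_mul_of_nonneg_right (pow_le_pow_left₀ hc.le hcb 2) (sq_nonneg (x 2))]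
  have hTdet : |LinearMap.det (Tc : E3 →ₗ[ℝ] E3)| = b * b * c := by
    have e : (Tc : E3 →ₗ[ℝ] E3) = (R.toLinearEquiv : E3 →ₗ[ℝ] E3) ∘ₗ
        Matrix.toEuclideanLin (Matrix.diagonal ![b, b, c]) := by
      refine LinearMap.ext fun x => ?_
      show R (scl b c x) = R (Matrix.toEuclideanLin (Matrix.diagonal ![b, b, c]) x)
      congr 1
      apply ext3 <;> simp [Matrix.toLpLin_apply, Matrix.mulVec_diagonal]
    rw [e, LinearMap.det_comp, abs_mul, abs_det_isometry, one_mul,
      Matrix.toEuclideanLin_eq_toLin_orthonormal, LinearMap.det_toLin]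
    simp [Matrix.det_diagonal, Fin.prod_univ_three]
    exact Or.inl hc.le
  have hlow := ellipsoid_cover Tc hb hTnorm u hu B (fun x hx => by
    obtain ⟨i, hi⟩ := Set.mem_iUnion.1 (hcov (hdiag x hx))
    exact ⟨i, hi⟩)
  refine le_trans ?_ hlow
  refine (mul_le_mul_right hshadow _).trans ?_
  rw [← ENNReal.ofReal_mul (by unfold symConst; positivity)]
  refine ENNReal.ofReal_le_ofReal ?_
  rw [hTdet, hg, show Real.pi * (b * b * c) / b = Real.pi * (b * c) by field_simp]
  have hsq : 1 / (Real.sqrt 2 * (b * c)) ≤ Real.sqrt (gram2 a₁ a₂) := by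
    refine Real.le_sqrt_of_sq_le ?_
    rw [div_pow, mul_pow, Real.sq_sqrt (by norm_num), mul_pow, one_pow, ← mul_assoc]
    exact hgram
  calc symConst * (4 / Real.sqrt (gram2 a₁ a₂))
      ≤ symConst * (4 / (1 / (Real.sqrt 2 * (b * c)))) := by
        refine mul_le_mul_of_nonneg_left ?_ (by unfold symConst; positivity)
        exact div_le_div_of_nonneg_left (by norm_num) (by positivity) hsq
    _ = Real.pi * (b * c) := by
        unfold symConst
        field_simp
        rw [Real.sq_sqrt (by norm_num)]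
        ring

/-- The centrally symmetric case, with an arbitrary centre. -/
theorem symmetric_bound (K : Set E3) (hK : IsCompact K) (hconv : Convex ℝ K)
    (hint : (interior K).Nonempty) (z : E3) (hsymm : ∀ x ∈ K, (2 : ℝ) • z - x ∈ K)
    {ι : Type*} [Countable ι] (u : ι → E3) (hu : ∀ i, ‖u i‖ = 1)
    (B : ∀ i, Set (plane (u i))) (hcov : K ⊆ ⋃ i, cylinder (u i) (B i)) :
    ∃ v : E3, ‖v‖ = 1 ∧
      ENNReal.ofReal symConst * shadowArea v K ≤ ∑' i, volume (B i) := by
  set τ : E3 ≃ₜ E3 := Homeomorph.addRight (-z) with hτ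
  set K₀ : Set E3 := τ '' K with hK₀
  set p : ∀ i, plane (u i) := fun i => (plane (u i)).orthogonalProjectionOnto (-z) with hp
  set B₀ : ∀ i, Set (plane (u i)) := fun i => (fun b => b + p i) '' B i with hB₀
  have hmem : ∀ y : E3, y ∈ K₀ ↔ y + z ∈ K := fun y => by
    constructor
    · rintro ⟨x, hx, rfl⟩
      simpa [hτ] using hx
    · intro h
      exact ⟨_, h, by simp [hτ]⟩
  have hcov₀ : K₀ ⊆ ⋃ i, cylinder (u i) (B₀ i) := by
    rintro _ ⟨x, hx, rfl⟩
    obtain ⟨i, hi⟩ := Set.mem_iUnion.1 (hcov hx)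
    refine Set.mem_iUnion.2 ⟨i, ?_⟩
    rw [cylinder_eq_preimage (hu i)] at hi ⊢
    exact ⟨_, hi, by simp [hτ, hp, sub_eq_add_neg]⟩
  have hint₀ : (interior K₀).Nonempty := by
    rw [hK₀, ← τ.image_interior]
    exact hint.image _
  have hsymm₀ : ∀ y ∈ K₀, -y ∈ K₀ := fun y hy => by
    rw [hmem] at hy ⊢
    convert hsymm _ hy using 1
    module
  have hconv₀ : Convex ℝ K₀ := by
    have : K₀ = (fun x => -z + x) '' K := by
      rw [hK₀]; congr 1; ext x; simp [hτ, add_comm]
    rw [this]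
    exact hconv.translate (-z)
  obtain ⟨v, hv, hle⟩ := centered_bound K₀ (hK.image τ.continuous) hconv₀ hint₀ hsymm₀ u hu B₀ hcov₀
  refine ⟨v, hv, ?_⟩
  have hvol : ∀ i, volume (B₀ i) = volume (B i) := fun i => by
    simp only [hB₀]
    rw [Set.image_add_right, measure_preimage_add_right]
  have hsh : shadowArea v K₀ = shadowArea v K := by
    unfold shadowArea
    have : (plane v).orthogonalProjectionOnto '' K₀
        = (fun b => b + (plane v).orthogonalProjectionOnto (-z))
          '' ((plane v).orthogonalProjectionOnto '' K) := by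
      rw [hK₀, Set.image_image, Set.image_image]
      simp [hτ, sub_eq_add_neg]
    rw [this, Set.image_add_right, measure_preimage_add_right]
  simp_rw [hvol, hsh] at hle
  exact hle

end Vale.Agent.P243
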