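import Vale.Agent.P243.Defs

/-!
# P243: cylinders covering an ellipsoid
-/

open MeasureTheory
open scoped RealInnerProductSpace ENNReal

namespace Vale.Agent.P243

/-- The Archimedes density of the unit ball, extended by zero. -/
noncomputable def arch (r : ℝ) : ℝ≥0∞ := ENNReal.ofReal (Real.sqrt r)⁻¹

lemma measurable_arch : Measurable arch := by
  unfold arch
  fun_prop

lemma arch_nonpos {r : ℝ} (h : r ≤ 0) : arch r = 0 := by
  simp [arch, Real.sqrt_eq_zero'.2 h]

lemma lintegral_arch_unit : ∫⁻ t : ℝ, arch (1 - t ^ 2) = ENNReal.ofReal Real.pi := by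
  have hd : ∀ x ∈ Set.Ioo (-1 : ℝ) 1,
      HasDerivAt Real.arcsin (Real.sqrt (1 - x ^ 2))⁻¹ x := fun x hx => by
    simpa using Real.hasDerivAt_arcsin hx.1.ne' hx.2.ne
  have hint : IntervalIntegrable (fun x : ℝ => (Real.sqrt (1 - x ^ 2))⁻¹) volume (-1) 1 := by
    rw [intervalIntegrable_iff_integrableOn_Ioc_of_le (by norm_num)]
    exact intervalIntegral.integrableOn_deriv_of_nonneg Real.continuous_arcsin.continuousOn hd
      (fun x _ => by positivity)
  have hI := intervalIntegral.integral_eq_sub_of_hasDerivAt_of_le (by norm_num)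
    Real.continuous_arcsin.continuousOn hd hint
  rw [intervalIntegral.integral_of_le (by norm_num), Real.arcsin_neg, Real.arcsin_one] at hI
  have hrest : ∫⁻ t : ℝ, arch (1 - t ^ 2) = ∫⁻ t in Set.Ioc (-1 : ℝ) 1, arch (1 - t ^ 2) := by
    refine (setLIntegral_eq_of_support_subset ?_).symm
    intro t ht
    by_contra hc
    apply ht
    apply arch_nonpos
    simp only [Set.mem_Ioc, not_and_or, not_lt, not_le] at hc
    rcases hc with hc | hc <;> nlinarith
  rw [hrest]
  unfold arch
  rw [← ofReal_integral_eq_lintegral_ofReal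
    ((intervalIntegrable_iff_integrableOn_Ioc_of_le (by norm_num)).1 hint)
    (Filter.Eventually.of_forall fun x => by positivity), hI]
  ring_nf

lemma lintegral_arch_quad {α R : ℝ} (hα : 0 < α) (t0 : ℝ) (hR : 0 < R) :
    ∫⁻ t : ℝ, arch (R ^ 2 - α ^ 2 * (t - t0) ^ 2) = ENNReal.ofReal (Real.pi / α) := by
  have hc : 0 < α / R := by positivity
  have h1 : ∀ t : ℝ, arch (R ^ 2 - α ^ 2 * t ^ 2)
      = ENNReal.ofReal R⁻¹ * arch (1 - ((α / R) * t) ^ 2) := fun t => by
    unfold arch
    rw [← ENNReal.ofReal_mul (by positivity)]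
    congr 1
    have : R ^ 2 - α ^ 2 * t ^ 2 = R ^ 2 * (1 - ((α / R) * t) ^ 2) := by field_simp
    rw [this, Real.sqrt_mul (by positivity), Real.sqrt_sq hR.le, mul_inv]
  rw [lintegral_sub_right_eq_self (fun t => arch (R ^ 2 - α ^ 2 * t ^ 2)) t0]
  simp_rw [h1]
  rw [lintegral_const_mul' _ _ ENNReal.ofReal_ne_top]
  have hmap := Real.map_volume_mul_left hc.ne'
  have hm : Measurable fun t : ℝ => arch (1 - t ^ 2) := measurable_arch.comp (by fun_prop)
  have h2 : ∫⁻ t : ℝ, arch (1 - ((α / R) * t) ^ 2)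
      = ∫⁻ t : ℝ, arch (1 - t ^ 2) ∂(Measure.map (fun x => α / R * x) volume) :=
    (lintegral_map hm (measurable_const_mul _)).symm
  rw [h2, hmap, lintegral_smul_measure, lintegral_arch_unit, smul_eq_mul,
    ← ENNReal.ofReal_mul (by positivity), ← ENNReal.ofReal_mul (by positivity)]
  congr 1
  rw [abs_of_pos (inv_pos.2 hc)]
  field_simp

/-- Line integrals of the Archimedes density. -/
lemma lintegral_arch_line_le (p q : E3) (hq : q ≠ 0) :
    ∫⁻ t : ℝ, arch (1 - ‖p + t • q‖ ^ 2) ≤ ENNReal.ofReal (Real.pi / ‖q‖) := by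
  have hα : 0 < ‖q‖ := norm_pos_iff.2 hq
  set t0 : ℝ := -(⟪p, q⟫ / ‖q‖ ^ 2) with ht0
  set S : ℝ := 1 - ‖p‖ ^ 2 + ⟪p, q⟫ ^ 2 / ‖q‖ ^ 2 with hS
  have h : ∀ t : ℝ, 1 - ‖p + t • q‖ ^ 2 = S - ‖q‖ ^ 2 * (t - t0) ^ 2 := fun t => by
    rw [norm_add_sq_real, inner_smul_right, norm_smul, Real.norm_eq_abs, mul_pow, sq_abs, ht0, hS]
    field_simp
    ring
  simp_rw [h]
  rcases le_or_gt S 0 with hS0 | hS0
  · have : ∀ t : ℝ, arch (S - ‖q‖ ^ 2 * (t - t0) ^ 2) = 0 :=
      fun t => arch_nonpos (by nlinarith [mul_nonneg (sq_nonneg ‖q‖) (sq_nonneg (t - t0))])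
    simp [this]
  · rw [show S = Real.sqrt S ^ 2 from (Real.sq_sqrt hS0.le).symm,
      lintegral_arch_quad hα t0 (Real.sqrt_pos.2 hS0)]

/-- Line integrals of the Archimedes density meeting the open ball. -/
lemma lintegral_arch_line_eq (p q : E3) (hq : ‖q‖ = 1) (hpq : ⟪p, q⟫ = 0) (hp : ‖p‖ < 1) :
    ∫⁻ t : ℝ, arch (1 - ‖p + t • q‖ ^ 2) = ENNReal.ofReal Real.pi := by
  have h : ∀ t : ℝ, 1 - ‖p + t • q‖ ^ 2
      = Real.sqrt (1 - ‖p‖ ^ 2) ^ 2 - 1 ^ 2 * (t - 0) ^ 2 := fun t => by
    rw [norm_add_sq_real, inner_smul_right, norm_smul, Real.norm_eq_abs, mul_pow, sq_abs, hq, hpq,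
      Real.sq_sqrt (by nlinarith [norm_nonneg p])]
    ring
  simp_rw [h]
  rw [lintegral_arch_quad one_pos 0 (Real.sqrt_pos.2 (by nlinarith [norm_nonneg p])), div_one]

lemma finrank_plane {u : E3} (hu : ‖u‖ = 1) : Module.finrank ℝ (plane u) = 2 :=
  Submodule.finrank_orthogonal_span_singleton (by
    intro h
    rw [h, norm_zero] at hu
    exact zero_ne_one hu)

lemma coe_mem_plane {u : E3} (b : plane u) : ⟪(b : E3), u⟫ = 0 :=
  Submodule.inner_left_of_mem_orthogonal (Submodule.mem_span_singleton_self u) b.2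

/-- Splitting space into a plane and its normal line. -/
lemma lintegral_split {u : E3} (hu : ‖u‖ = 1) (f : E3 → ℝ≥0∞) (hf : Measurable f) :
    ∫⁻ x, f x = ∫⁻ b : plane u, ∫⁻ t : ℝ, f ((b : E3) + t • u) := by
  let e : ℝ ≃ₗᵢ[ℝ] (ℝ ∙ u) := LinearIsometryEquiv.toSpanUnitSingleton u hu
  let U : Submodule ℝ E3 := ℝ ∙ u
  have hmp : MeasurePreserving
      (fun x : E3 => WithLp.ofLp (U.orthogonalDecomposition x)) volume
      (volume.prod volume) :=
    (WithLp.volume_preserving_ofLp _ _).comp U.orthogonalDecomposition.measurePreserving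
  let g : U × (plane u) → ℝ≥0∞ := fun p => f ((p.1 : E3) + (p.2 : E3))
  have hg : Measurable g := hf.comp
    ((measurable_subtype_coe.comp measurable_fst).add (measurable_subtype_coe.comp measurable_snd))
  have h1 : ∫⁻ x, f x = ∫⁻ p, g p ∂((volume : Measure U).prod (volume : Measure (plane u))) := by
    rw [← hmp.lintegral_comp hg]
    refine lintegral_congr fun x => ?_
    simp only [g, Submodule.orthogonalDecomposition_apply]
    exact congrArg f
      (U.starProjection_add_starProjection_orthogonal x).symm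
  rw [h1, lintegral_prod_symm' g hg]
  refine lintegral_congr fun b => ?_
  have hgb : Measurable fun a : U => g (a, b) := hg.comp (measurable_id.prodMk measurable_const)
  rw [← e.measurePreserving.lintegral_comp hgb]
  refine lintegral_congr fun t => ?_
  simp [g, e, add_comm]

lemma mass_arch_ball : ∫⁻ x : E3, arch (1 - ‖x‖ ^ 2) = ENNReal.ofReal (Real.pi ^ 2) := by
  let u : E3 := EuclideanSpace.single 0 1
  have hu : ‖u‖ = 1 := by simp [u]
  rw [lintegral_split hu (fun x => arch (1 - ‖x‖ ^ 2)) (measurable_arch.comp (by fun_prop))]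
  have hfin := finrank_plane hu
  have : Nontrivial (plane u) := Module.nontrivial_of_finrank_eq_succ hfin
  have hval : ∀ b : plane u, ∫⁻ t : ℝ, arch (1 - ‖(b : E3) + t • u‖ ^ 2)
      = (Metric.ball (0 : plane u) 1).indicator (fun _ => ENNReal.ofReal Real.pi) b := by
    intro b
    by_cases hb : ‖b‖ < 1
    · rw [Set.indicator_of_mem (by simpa using hb)]
      exact lintegral_arch_line_eq _ _ hu (coe_mem_plane b) hb
    · rw [Set.indicator_of_notMem (by simpa using hb)]
      have : ∀ t : ℝ, arch (1 - ‖(b : E3) + t • u‖ ^ 2) = 0 := fun t => by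
        apply arch_nonpos
        rw [norm_add_sq_real, inner_smul_right, coe_mem_plane b]
        rw [not_lt] at hb
        have hb' : (1 : ℝ) ≤ ‖(b : E3)‖ := hb
        nlinarith [sq_nonneg ‖t • u‖]
      simp [this]
  simp_rw [hval]
  rw [lintegral_indicator_const measurableSet_ball,
    InnerProductSpace.volume_ball_of_dim_even (k := 1) (by omega : Module.finrank ℝ (plane u) = 2 * 1),
    hfin]
  simp [← ENNReal.ofReal_mul Real.pi_pos.le, pow_two]

lemma cylinder_mono {u : E3} {B B' : Set (plane u)} (h : B ⊆ B') :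
    cylinder u B ⊆ cylinder u B' := fun _ ⟨b, hb, hx⟩ => ⟨b, h hb, hx⟩

lemma cylinder_eq_preimage {u : E3} (hu : ‖u‖ = 1) (B : Set (plane u)) :
    cylinder u B = (plane u).orthogonalProjectionOnto ⁻¹' B := by
  ext x
  constructor
  · rintro ⟨b, hb, t, rfl⟩
    have : (plane u).orthogonalProjectionOnto u = 0 :=
      Submodule.orthogonalProjectionOnto_orthogonalComplement_singleton_eq_zero u
    simpa [this] using hb
  · intro hx
    refine ⟨_, hx, ⟪u, x⟫, ?_⟩
    have h := Submodule.starProjection_add_starProjection_orthogonal (K := (ℝ ∙ u)) x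
    rw [Submodule.starProjection_unit_singleton ℝ hu] at h
    rw [add_comm]
    exact h.symm

/-- Cylinders covering the ellipsoid `A` applied to the unit ball have total base area at
least `π |det A| / ‖A‖`. -/
theorem ellipsoid_cover {ι : Type*} [Countable ι] (A : E3 ≃L[ℝ] E3) {N : ℝ} (hN : 0 < N)
    (hA : ∀ x, ‖A x‖ ≤ N * ‖x‖) (u : ι → E3) (hu : ∀ i, ‖u i‖ = 1)
    (B : ∀ i, Set (plane (u i)))
    (hcov : ∀ x : E3, ‖x‖ ≤ 1 → ∃ i, A x ∈ cylinder (u i) (B i)) :
    ENNReal.ofReal (Real.pi * |LinearMap.det (A : E3 →ₗ[ℝ] E3)| / N)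
      ≤ ∑' i, volume (B i) := by
  let ρ : E3 → ℝ≥0∞ := fun x => arch (1 - ‖A.symm x‖ ^ 2)
  have hρ : Measurable ρ := measurable_arch.comp (by fun_prop)
  let B' : ∀ i, Set (plane (u i)) := fun i => toMeasurable volume (B i)
  have hC : ∀ i, MeasurableSet (cylinder (u i) (B' i)) := fun i => by
    rw [cylinder_eq_preimage (hu i)]
    exact (measurableSet_toMeasurable _ _).preimage
      ((plane (u i)).orthogonalProjectionOnto).continuous.measurable
  have hterm : ∀ i, ∫⁻ x in cylinder (u i) (B' i), ρ x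
      ≤ ENNReal.ofReal (Real.pi * N) * volume (B i) := fun i => by
    rw [← lintegral_indicator (hC i), lintegral_split (hu i) _ (hρ.indicator (hC i))]
    have hmem : ∀ (b : plane (u i)) (t : ℝ),
        ((b : E3) + t • u i ∈ cylinder (u i) (B' i)) ↔ b ∈ B' i := fun b t => by
      rw [cylinder_eq_preimage (hu i), Set.mem_preimage, map_add, map_smul,
        Submodule.orthogonalProjectionOnto_orthogonalComplement_singleton_eq_zero]
      simp
    calc _ ≤ ∫⁻ b : plane (u i),
          (B' i).indicator (fun _ => ENNReal.ofReal (Real.pi * N)) b := by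
          refine lintegral_mono fun b => ?_
          by_cases hb : b ∈ B' i
          · rw [Set.indicator_of_mem hb]
            have : ∀ t : ℝ, (cylinder (u i) (B' i)).indicator ρ ((b : E3) + t • u i)
                = arch (1 - ‖A.symm (b : E3) + t • A.symm (u i)‖ ^ 2) := fun t => by
              rw [Set.indicator_of_mem ((hmem b t).2 hb)]
              simp [ρ]
            simp_rw [this]
            have hN1 : 1 ≤ N * ‖A.symm (u i)‖ := by
              simpa [hu i] using hA (A.symm (u i))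
            have hne : A.symm (u i) ≠ 0 := fun h => by
              rw [h, norm_zero, mul_zero] at hN1; linarith
            refine (lintegral_arch_line_le _ _ hne).trans (ENNReal.ofReal_le_ofReal ?_)
            rw [div_le_iff₀ (norm_pos_iff.2 hne), mul_assoc]
            exact le_mul_of_one_le_right Real.pi_pos.le hN1
          · rw [Set.indicator_of_notMem hb]
            have : ∀ t : ℝ, (cylinder (u i) (B' i)).indicator ρ ((b : E3) + t • u i) = 0 :=
              fun t => Set.indicator_of_notMem (fun h => hb ((hmem b t).1 h)) _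
            simp [this]
      _ = _ := by
          rw [lintegral_indicator_const (measurableSet_toMeasurable _ _), measure_toMeasurable]
  have hsupp : ∫⁻ x, ρ x = ∫⁻ x in ⋃ i, cylinder (u i) (B' i), ρ x := by
    refine (setLIntegral_eq_of_support_subset fun x hx => ?_).symm
    have h1 : ‖A.symm x‖ ≤ 1 := by
      by_contra h
      exact hx (arch_nonpos (by nlinarith))
    obtain ⟨i, hi⟩ := hcov _ h1
    rw [A.apply_symm_apply] at hi
    exact Set.mem_iUnion.2 ⟨i, cylinder_mono (subset_toMeasurable _ _) hi⟩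
  have hdet : LinearMap.det (A : E3 →ₗ[ℝ] E3) ≠ 0 := by
    simpa using (LinearEquiv.isUnit_det' A.toLinearEquiv).ne_zero
  have hmass : ∫⁻ x, ρ x
      = ENNReal.ofReal (|LinearMap.det (A : E3 →ₗ[ℝ] E3)| * Real.pi ^ 2) := by
    have h := MeasureTheory.Measure.map_linearMap_addHaar_eq_smul_addHaar
      (volume : Measure E3) hdet
    have h2 : ∫⁻ x, ρ (A x) = ∫⁻ x, ρ x ∂(Measure.map (A : E3 →ₗ[ℝ] E3) volume) :=
      (lintegral_map hρ A.continuous.measurable).symm
    have h3 : ∫⁻ x, ρ (A x) = ENNReal.ofReal (Real.pi ^ 2) := by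
      simp [ρ, mass_arch_ball]
    rw [h, lintegral_smul_measure, h3, smul_eq_mul] at h2
    rw [ENNReal.ofReal_mul (abs_nonneg _), h2, ← mul_assoc, ← ENNReal.ofReal_mul (abs_nonneg _),
      ← abs_mul, mul_inv_cancel₀ hdet]
    simp
  have key : ∫⁻ x, ρ x ≤ ENNReal.ofReal (Real.pi * N) * ∑' i, volume (B i) :=
    calc ∫⁻ x, ρ x = ∫⁻ x in ⋃ i, cylinder (u i) (B' i), ρ x := hsupp
      _ ≤ ∑' i, ∫⁻ x in cylinder (u i) (B' i), ρ x := lintegral_iUnion_le _ _
      _ ≤ ∑' i, ENNReal.ofReal (Real.pi * N) * volume (B i) := ENNReal.tsum_le_tsum hterm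
      _ = _ := ENNReal.tsum_mul_left
  rw [hmass] at key
  have hpos : 0 < Real.pi * N := by positivity
  rw [show Real.pi * |LinearMap.det (A : E3 →ₗ[ℝ] E3)| / N
      = |LinearMap.det (A : E3 →ₗ[ℝ] E3)| * Real.pi ^ 2 / (Real.pi * N) by field_simp,
    ENNReal.ofReal_div_of_pos hpos]
  refine ENNReal.div_le_of_le_mul ?_
  rw [mul_comm (∑' i, volume (B i))]
  exact key

end Vale.Agent.P243
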