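import Vale.Agent.P243.Defs

/-!
# P243: a shadow inside a parallelogram
-/

open MeasureTheory Matrix
open scoped RealInnerProductSpace ENNReal

namespace Vale.Agent.P243

/-- The Gram determinant of two vectors. -/
noncomputable def gram2 {F : Type*} [NormedAddCommGroup F] [InnerProductSpace ℝ F] (a b : F) : ℝ :=
  ‖a‖ ^ 2 * ‖b‖ ^ 2 - ⟪a, b⟫ ^ 2

lemma parallelogram_volume {F : Type*} [NormedAddCommGroup F] [InnerProductSpace ℝ F]
    [FiniteDimensional ℝ F] [MeasurableSpace F] [BorelSpace F] (hF : Module.finrank ℝ F = 2)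
    (a b : F) (hg : 0 < gram2 a b) :
    volume {z : F | |⟪a, z⟫| ≤ 1 ∧ |⟪b, z⟫| ≤ 1}
      = ENNReal.ofReal (4 / Real.sqrt (gram2 a b)) := by
  let o : OrthonormalBasis (Fin 2) ℝ F := (stdOrthonormalBasis ℝ F).reindex (finCongr hF)
  let M : Matrix (Fin 2) (Fin 2) ℝ := !![o.repr a 0, o.repr a 1; o.repr b 0, o.repr b 1]
  have hinner : ∀ v z : F, ⟪v, z⟫ = o.repr v 0 * o.repr z 0 + o.repr v 1 * o.repr z 1 := fun v z => by
    rw [← o.repr.inner_map_map v z, PiLp.inner_apply, Fin.sum_univ_two]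
    simp [mul_comm]
  have hsq : gram2 a b = (Matrix.det M) ^ 2 := by
    rw [gram2, ← real_inner_self_eq_norm_sq, ← real_inner_self_eq_norm_sq, hinner a a, hinner b b,
      hinner a b]
    simp [M, Matrix.det_fin_two]
    ring
  have hM : Matrix.det M ≠ 0 := fun h => by
    rw [hsq, h] at hg
    norm_num at hg
  let Φ : F → (Fin 2 → ℝ) := fun z => WithLp.ofLp (o.repr z)
  have hΦ : MeasurePreserving Φ volume volume :=
    (PiLp.volume_preserving_ofLp (Fin 2)).comp o.measurePreserving_repr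
  let Q : Set (Fin 2 → ℝ) := Set.Icc (fun _ => -1) (fun _ => 1)
  have hQ : MeasurableSet Q := measurableSet_Icc
  have hset : {z : F | |⟪a, z⟫| ≤ 1 ∧ |⟪b, z⟫| ≤ 1} = Φ ⁻¹' (toLin' M ⁻¹' Q) := by
    ext z
    simp only [Set.mem_setOf_eq, Set.mem_preimage, Q, Set.mem_Icc, Pi.le_def, Fin.forall_fin_two,
      hinner, toLin'_apply, Φ, M, abs_le]
    simp [Matrix.mulVec, dotProduct, Fin.sum_univ_two]
    tauto
  have hmeas : Measurable (toLin' M) := (toLin' M).continuous_of_finiteDimensional.measurable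
  rw [hset, hΦ.measure_preimage (hmeas hQ).nullMeasurableSet, ← Measure.map_apply hmeas hQ,
    Real.map_matrix_volume_pi_eq_smul_volume_pi hM, Measure.smul_apply, Real.volume_Icc_pi,
    smul_eq_mul, Fin.prod_univ_two, ← ENNReal.ofReal_mul (by norm_num),
    ← ENNReal.ofReal_mul (abs_nonneg _), hsq, Real.sqrt_sq_eq_abs, abs_inv]
  congr 1
  ring

/-- A body between two pairs of parallel planes has a small shadow. -/
lemma exists_small_shadow (K : Set E3) (a b : E3) (ha : ∀ x ∈ K, |⟪a, x⟫| ≤ 1)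
    (hb : ∀ x ∈ K, |⟪b, x⟫| ≤ 1) (hg : 0 < gram2 a b) :
    ∃ v : E3, ‖v‖ = 1 ∧ shadowArea v K ≤ ENNReal.ofReal (4 / Real.sqrt (gram2 a b)) := by
  obtain ⟨w, hw, hw0⟩ : ∃ w : E3, w ∈ (Submodule.span ℝ ({a, b} : Set E3))ᗮ ∧ w ≠ 0 := by
    by_contra h
    push Not at h
    have h2 : (Submodule.span ℝ ({a, b} : Set E3))ᗮ = ⊥ := (Submodule.eq_bot_iff _).2 h
    have h3 := Submodule.finrank_add_finrank_orthogonal (Submodule.span ℝ ({a, b} : Set E3))
    rw [h2, finrank_bot, add_zero, finrank_euclideanSpace_fin] at h3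
    have h4 := finrank_span_finset_le_card (R := ℝ) ({a, b} : Finset E3)
    rw [Set.finrank, Finset.coe_pair, h3] at h4
    exact absurd (h4.trans Finset.card_le_two) (by norm_num)
  refine ⟨‖w‖⁻¹ • w, norm_smul_inv_norm hw0, ?_⟩
  set v := ‖w‖⁻¹ • w with hv
  have hvn : ‖v‖ = 1 := norm_smul_inv_norm hw0
  have hmem : ∀ c ∈ ({a, b} : Set E3), c ∈ plane v := fun c hc => by
    rw [Submodule.mem_orthogonal_singleton_iff_inner_right, hv, inner_smul_left,
      Submodule.inner_left_of_mem_orthogonal (Submodule.subset_span hc) hw]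
    simp
  let a' : plane v := ⟨a, hmem a (by simp)⟩
  let b' : plane v := ⟨b, hmem b (by simp)⟩
  have hfin : Module.finrank ℝ (plane v) = 2 :=
    Submodule.finrank_orthogonal_span_singleton (by
      intro h
      rw [h, norm_zero] at hvn
      exact zero_ne_one hvn)
  have hgram : gram2 a' b' = gram2 a b := rfl
  refine (measure_mono ?_).trans_eq ((parallelogram_volume hfin a' b' (hgram ▸ hg)).trans (by rw [hgram]))
  rintro _ ⟨x, hx, rfl⟩
  refine ⟨?_, ?_⟩
  · have : ⟪a', (plane v).orthogonalProjectionOnto x⟫ = ⟪a, x⟫ :=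
      Submodule.inner_orthogonalProjectionOnto_eq_of_mem_left a' x
    rw [this]
    exact ha x hx
  · have : ⟪b', (plane v).orthogonalProjectionOnto x⟫ = ⟪b, x⟫ :=
      Submodule.inner_orthogonalProjectionOnto_eq_of_mem_left b' x
    rw [this]
    exact hb x hx

end Vale.Agent.P243
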